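import Vale.Agent.P176.Resolution

/-!
The finite-dimensional algebra `Alg K` and its modules attached to filtered free `U`-modules and
to finite-dimensional `U`-modules.
-/

namespace Vale.Agent.P176

open MvPolynomial Matrix

variable (K : Type) [Field K]

/-- `U → Mat₂(U)`: tensoring with the standard representation, the centre lowered by one -/
noncomputable def Delta : U K →ₐ[K] Matrix (Fin 2) (Fin 2) (U K) :=
  lift K (fun x => match x with
    | 0 => !![g K 0, 0; 1, g K 0]
    | 1 => !![g K 1, 1; 0, g K 1]
    | 2 => !![g K 2 + 1, 0; 0, g K 2 - 1]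
    | 3 => !![g K 3 - 1, 0; 0, g K 3 - 1])
    (by ext i j; fin_cases i <;> fin_cases j <;>
          simp [Matrix.mul_apply, two_mul, Fin.sum_univ_two, add_mul, mul_add, sub_mul, mul_sub,
            gHF] <;> abel)
    (by ext i j; fin_cases i <;> fin_cases j <;>
          simp [Matrix.mul_apply, two_mul, Fin.sum_univ_two, add_mul, mul_add, sub_mul, mul_sub,
            gHE] <;> abel)
    (by ext i j; fin_cases i <;> fin_cases j <;>
          simp [Matrix.mul_apply, Fin.sum_univ_two, add_mul, mul_add, sub_mul, mul_sub,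
            gEF] <;> abel)
    (by intro x; fin_cases x <;> ext i j <;> fin_cases i <;> fin_cases j <;>
          simp [Matrix.mul_apply, Fin.sum_univ_two, add_mul, mul_add, sub_mul, mul_sub,
            gZ] <;> abel)

theorem Delta_g (x : Fin 4) : Delta K (g K x) = match x with
    | 0 => !![g K 0, 0; 1, g K 0]
    | 1 => !![g K 1, 1; 0, g K 1]
    | 2 => !![g K 2 + 1, 0; 0, g K 2 - 1]
    | 3 => !![g K 3 - 1, 0; 0, g K 3 - 1] :=
  lift_g ..

/-- twice the centre times the projection onto the upper component -/
noncomputable def Fm : Matrix (Fin 2) (Fin 2) (U K) :=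
  !![g K 2 + 1 + g K 3, 2 * g K 0; 2 * g K 1, 1 - g K 2 + g K 3]

theorem Fm_Delta (u : U K) : Fm K * Delta K u = Delta K u * Fm K := by
  induction u using U_induction K with
  | hc c => rw [AlgHom.commutes]; exact (Algebra.commutes _ _).symm
  | hg x =>
    rw [Delta_g]
    fin_cases x <;> ext i j <;> fin_cases i <;> fin_cases j <;>
      simp [Fm, Matrix.mul_apply, Fin.sum_univ_two, add_mul, mul_add, sub_mul, mul_sub, two_mul,
        gHF, gHE, gEF, gZ] <;> abel
  | hm a b ha hb => rw [map_mul, ← mul_assoc, ha, mul_assoc, hb, mul_assoc]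
  | ha a b ha hb => rw [map_add, mul_add, add_mul, ha, hb]

theorem Fm_mem (a c : Fin 2) : Fm K a c ∈ Fil K 1 := by
  have h := g_mem_Fil K
  have h1 := one_mem_Fil K 1
  fin_cases a <;> fin_cases c <;> simp [Fm, two_mul] <;>
    first
      | exact add_mem (add_mem (h _) h1) (h _)
      | exact add_mem (h _) (h _)
      | exact add_mem (sub_mem h1 (h _)) (h _)

theorem Delta_mem {d : ℕ} {u : U K} (hu : u ∈ Fil K d) (a c : Fin 2) :
    Delta K u a c ∈ Fil K d := by
  induction hu using Submodule.pow_induction_on_left' generalizing a c with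
  | algebraMap r =>
    rw [AlgHom.commutes, Matrix.algebraMap_matrix_apply]
    split_ifs
    · exact algebraMap_mem_Fil K r _
    · exact zero_mem _
  | add x y i _ _ hx hy => simpa using add_mem (hx a c) (hy a c)
  | mem_mul m hm i x _ hx =>
    have hm' : ∀ a c, Delta K m a c ∈ Fil K 1 := by
      induction hm using Submodule.span_induction with
      | mem y hy =>
        intro a c
        rcases hy with rfl | ⟨x, rfl⟩
        · rw [map_one, Matrix.one_apply]; split_ifs
          · exact one_mem_Fil K 1
          · exact zero_mem _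
        · have h := g_mem_Fil K
          have h1 := one_mem_Fil K 1
          rw [Delta_g]
          fin_cases x <;> fin_cases a <;> fin_cases c <;> simp <;>
            first
              | exact h _
              | exact h1
              | exact add_mem (h _) h1
              | exact sub_mem (h _) h1
      | zero => simp
      | add y z _ _ hy hz => intro a c; simpa using add_mem (hy a c) (hz a c)
      | smul r y _ hy => intro a c; simpa using Submodule.smul_mem _ r (hy a c)
    rw [map_mul, Matrix.mul_apply, Nat.succ_eq_add_one, Nat.add_comm i 1]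
    exact Submodule.sum_mem _ fun e _ => Fil_mul K (hm' a e) (hx e c)

theorem DeltaZ_mem {d : ℤ} {u : U K} (hu : u ∈ FilZ K d) (a c : Fin 2) :
    Delta K u a c ∈ FilZ K d := by
  by_cases hd : d < 0
  · rw [FilZ_neg K hd, Submodule.mem_bot] at hu; simp [hu]
  · simp only [FilZ, hd, if_false] at hu ⊢; exact Delta_mem K hu a c

theorem FmZ_mem (a c : Fin 2) : Fm K a c ∈ FilZ K 1 := by
  rw [show (1 : ℤ) = ((1 : ℕ) : ℤ) from rfl, FilZ_natCast]; exact Fm_mem K a c

theorem Fm_injective [CharZero K] {d : ℤ} (v : Fin 2 → U K) (hv : ∀ c, v c ∈ FilZ K d)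
    (h : Fm K *ᵥ v = 0) : v = 0 := by
  have key : ∀ (k : ℕ) v, (∀ c, v c ∈ Fil K k) → Fm K *ᵥ v = 0 → ∀ c, top K k (v c) = 0 := by
    intro k v hv h
    have h2 : ∀ (x : Fin 4) c, top K (k + 1) (2 * g K x * v c) = 2 * (X x * top K k (v c)) := by
      intro x c
      rw [two_mul, add_mul, map_add, top_g_mul K (hv c), two_mul]
    have h1 : ∀ c, top K (k + 1) (v c) = 0 := fun c =>
      top_eq_zero_of_lt K (hv c) (Nat.lt_succ_self k)
    have e0 := congrArg (top K (k + 1)) (congrFun h 0)
    have e1 := congrArg (top K (k + 1)) (congrFun h 1)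
    simp only [Fm, Matrix.mulVec, dotProduct, Fin.sum_univ_two, Pi.zero_apply, map_zero] at e0 e1
    simp [add_mul, sub_mul, top_g_mul K (hv _), h1, h2] at e0 e1
    set t0 := top K k (v 0)
    set t1 := top K k (v 1)
    have hdet : (X 3 ^ 2 - X 2 ^ 2 - 4 * X 0 * X 1 : P K) ≠ 0 := by
      intro hz
      have := congrArg (MvPolynomial.eval (fun i : Fin 4 => if i = 3 then (1 : K) else 0)) hz
      simp at this
    have a0 : (X 3 ^ 2 - X 2 ^ 2 - 4 * X 0 * X 1) * t0 = 0 := by
      linear_combination (X 3 - X 2) * e0 - 2 * X 0 * e1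
    have a1 : (X 3 ^ 2 - X 2 ^ 2 - 4 * X 0 * X 1) * t1 = 0 := by
      linear_combination (X 3 + X 2) * e1 - 2 * X 1 * e0
    intro c
    fin_cases c
    · exact (mul_eq_zero.mp a0).resolve_left hdet
    · exact (mul_eq_zero.mp a1).resolve_left hdet
  by_cases hd : d < 0
  · funext c
    have := hv c
    rwa [FilZ_neg K hd, Submodule.mem_bot] at this
  · simp only [FilZ, hd, if_false] at hv
    clear hd
    generalize hk : d.toNat = k at hv
    clear hk
    induction k with
    | zero =>
      funext c
      have ht : top K 0 (v c) = 0 := key 0 v hv h c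
      exact eq_zero_of_top_zero K (hv c) ht
    | succ k ih =>
      refine ih fun c => ?_
      have ht : top K (k + 1) (v c) = 0 := key (k + 1) v hv h c
      exact mem_Fil_pred K (hv c) ht

abbrev Blk := Matrix (Fin 3) (Fin 3) (U K)

abbrev last3 : Fin 3 := Fin.last 2

/-- the block with diagonal `b` and corner `ξ` -/
noncomputable def blk (b : U K) (ξ : Fin 2 → U K) : Blk K :=
  Matrix.of fun a c => Fin.lastCases (Fin.lastCases b (fun _ => 0) c)
    (fun a' => Fin.lastCases (ξ a') (fun c' => Delta K b a' c') c) a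

abbrev Big := Matrix (Fin 5) (Fin 5) (Blk K)

/-- membership in the block algebra -/
structure InS (s : Big K) : Prop where
  diag : ∀ i j : Fin 5, s i j last3 last3 ∈ FilZ K ((i : ℤ) - j)
  upper : ∀ i j (a c : Fin 2), s i j a.castSucc c.castSucc = Delta K (s i j last3 last3) a c
  lower : ∀ i j (c : Fin 2), s i j last3 c.castSucc = 0
  corner : ∀ (i j : Fin 5) (a : Fin 2), s i j a.castSucc last3 ∈ FilZ K ((i : ℤ) + 1 - j)

theorem big_mul_apply (s t : Big K) (i j : Fin 5) (a c : Fin 3) :
    (s * t) i j a c = ∑ l, ((∑ e : Fin 2, s i l a e.castSucc * t l j e.castSucc c)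
      + s i l a last3 * t l j last3 c) := by
  simp only [Matrix.mul_apply, Matrix.sum_apply, Fin.sum_univ_castSucc (n := 2)]

theorem InS.mul_diag {s t : Big K} (hs : InS K s) (i j : Fin 5) :
    (s * t) i j last3 last3 = ∑ l, s i l last3 last3 * t l j last3 last3 := by
  simp [big_mul_apply, hs.lower]

theorem InS.mul {s t : Big K} (hs : InS K s) (ht : InS K t) : InS K (s * t) := by
  refine ⟨fun i j => ?_, fun i j a c => ?_, fun i j c => ?_, fun i j a => ?_⟩
  · rw [hs.mul_diag]
    refine Submodule.sum_mem _ fun l _ => ?_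
    simpa using FilZ_mul K (hs.diag i l) (ht.diag l j)
  · rw [hs.mul_diag, map_sum, Matrix.sum_apply, big_mul_apply]
    refine Finset.sum_congr rfl fun l _ => ?_
    simp [hs.upper, ht.upper, ht.lower, Matrix.mul_apply]
  · simp [big_mul_apply, hs.lower, ht.lower]
  · rw [big_mul_apply]
    refine Submodule.sum_mem _ fun l _ => add_mem (Submodule.sum_mem _ fun e _ => ?_) ?_
    · rw [hs.upper]
      exact FilZ_mono K (by omega) (FilZ_mul K (DeltaZ_mem K (hs.diag i l) a e) (ht.corner l j e))
    · exact FilZ_mono K (by omega) (FilZ_mul K (hs.corner i l a) (ht.diag l j))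

theorem InS.algebraMap_mem (r : K) : InS K (algebraMap K (Big K) r) := by
  have h : ∀ (i j : Fin 5) (a c : Fin 3), algebraMap K (Big K) r i j a c
      = if i = j ∧ a = c then algebraMap K (U K) r else 0 := by
    intro i j a c
    by_cases hij : i = j <;> simp [Matrix.algebraMap_matrix_apply, hij]
  refine ⟨fun i j => ?_, fun i j a c => ?_, fun i j c => ?_, fun i j a => ?_⟩
  · rw [h]; split_ifs with hh
    · rw [hh.1, sub_self, show (0 : ℤ) = ((0 : ℕ) : ℤ) from rfl, FilZ_natCast]
      exact algebraMap_mem_Fil K r 0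
    · exact zero_mem _
  · by_cases hij : i = j
    · simp [h, hij, Matrix.algebraMap_matrix_apply]
    · simp [h, hij]
  · rw [h]; simp [(Fin.castSucc_lt_last c).ne']
  · rw [h]; simp [(Fin.castSucc_lt_last a).ne]

/-- the block algebra -/
noncomputable def SgA : Subalgebra K (Big K) where
  carrier := {s | InS K s}
  mul_mem' := InS.mul K
  add_mem' := fun {s t} hs ht =>
    have hs : InS K s := hs
    have ht : InS K t := ht
    ⟨fun i j => add_mem (hs.diag i j) (ht.diag i j),
    fun i j a c => by simp [hs.upper, ht.upper], fun i j c => by simp [hs.lower, ht.lower],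
    fun i j a => add_mem (hs.corner i j a) (ht.corner i j a)⟩
  algebraMap_mem' := InS.algebraMap_mem K

/-- the block algebra as a type -/
def Sg : Type := SgA K

noncomputable instance : Ring (Sg K) := inferInstanceAs (Ring (SgA K))

noncomputable instance : Algebra K (Sg K) := inferInstanceAs (Algebra K (SgA K))

/-- the matrix of an element -/
noncomputable def mat (s : Sg K) : Big K := Subtype.val (p := fun x => x ∈ SgA K) s

/-- an element from a matrix -/
noncomputable def ofMat (x : Big K) (h : InS K x) : Sg K := (⟨x, h⟩ : SgA K)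

theorem ins (s : Sg K) : InS K (mat K s) := Subtype.property (p := fun x => x ∈ SgA K) s

theorem mat_mul (s t : Sg K) : mat K (s * t) = mat K s * mat K t := rfl

theorem mat_add (s t : Sg K) : mat K (s + t) = mat K s + mat K t := rfl

theorem mat_one : mat K (1 : Sg K) = 1 := rfl

theorem mat_zero : mat K (0 : Sg K) = 0 := rfl

theorem mat_algebraMap (r : K) : mat K (algebraMap K (Sg K) r) = algebraMap K (Big K) r := rfl

theorem mat_ext {s t : Sg K} (h : mat K s = mat K t) : s = t :=
  Subtype.ext (p := fun x => x ∈ SgA K) h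

noncomputable def bet (s : Sg K) (i j : Fin 5) : U K := mat K s i j last3 last3

noncomputable def xi (s : Sg K) (i j : Fin 5) : Fin 2 → U K :=
  fun a => mat K s i j a.castSucc last3

theorem Sg_ext {s t : Sg K} (h1 : ∀ i j, bet K s i j = bet K t i j)
    (h2 : ∀ i j, xi K s i j = xi K t i j) : s = t := by
  apply mat_ext
  ext i j a c
  cases a using Fin.lastCases with
  | last =>
    cases c using Fin.lastCases with
    | last => exact h1 i j
    | cast c => rw [(ins K s).lower, (ins K t).lower]
  | cast a =>
    cases c using Fin.lastCases with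
    | last => exact congrFun (h2 i j) a
    | cast c =>
      rw [(ins K s).upper, (ins K t).upper]
      exact congrArg (fun u => Delta K u a c) (h1 i j)

theorem bet_mul (s t : Sg K) (i j : Fin 5) :
    bet K (s * t) i j = ∑ l, bet K s i l * bet K t l j :=
  (ins K s).mul_diag K i j

theorem xi_mul (s t : Sg K) (i j : Fin 5) :
    xi K (s * t) i j = ∑ l, (Delta K (bet K s i l) *ᵥ xi K t l j
      + fun a => xi K s i l a * bet K t l j) := by
  funext a
  simp only [Finset.sum_apply, Pi.add_apply, Matrix.mulVec, dotProduct, xi, bet]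
  rw [show mat K (s * t) = (mat K s) * (mat K t) from rfl, big_mul_apply]
  refine Finset.sum_congr rfl fun l _ => ?_
  simp [(ins K s).upper]

/-- the image of the lower level in the upper one -/
noncomputable def J : Ideal (Sg K) where
  carrier := {s | (∀ i j, bet K s i j = 0) ∧ ∀ i j : Fin 5, ∃ η : Fin 2 → U K,
    (∀ c, η c ∈ FilZ K ((i : ℤ) - j)) ∧ xi K s i j = Fm K *ᵥ η}
  add_mem' := by
    rintro s t ⟨hs, hs'⟩ ⟨ht, ht'⟩
    refine ⟨fun i j => ?_, fun i j => ?_⟩
    · have := hs i j; have := ht i j
      simp_all [bet, mat_add]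
    · obtain ⟨η, hη, e⟩ := hs' i j
      obtain ⟨η', hη', e'⟩ := ht' i j
      refine ⟨η + η', fun c => add_mem (hη c) (hη' c), ?_⟩
      rw [Matrix.mulVec_add, ← e, ← e']; rfl
  zero_mem' := ⟨fun i j => rfl, fun i j => ⟨0, fun c => zero_mem _, by
    rw [Matrix.mulVec_zero]; rfl⟩⟩
  smul_mem' := by
    rintro t s ⟨hs, hs'⟩
    refine ⟨fun i j => by simp [bet_mul, hs], fun i j => ?_⟩
    choose η hη e using hs'
    refine ⟨∑ l, Delta K (bet K t i l) *ᵥ η l j, fun c => ?_, ?_⟩
    · rw [Finset.sum_apply]
      refine Submodule.sum_mem _ fun l _ => ?_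
      simp only [Matrix.mulVec, dotProduct]
      exact Submodule.sum_mem _ fun d _ => FilZ_mono K (by omega)
        (FilZ_mul K (DeltaZ_mem K ((ins K t).diag i l) c d) (hη l j d))
    · rw [smul_eq_mul, xi_mul, Matrix.mulVec_sum]
      refine Finset.sum_congr rfl fun l _ => ?_
      rw [e, Matrix.mulVec_mulVec, Matrix.mulVec_mulVec, Fm_Delta]
      funext a; simp [hs]

instance : (J K).IsTwoSided := ⟨by
  rintro s t ⟨hs, hs'⟩
  refine ⟨fun i j => by simp [bet_mul, hs], fun i j => ?_⟩
  choose η hη e using hs'
  refine ⟨∑ l, fun a => η i l a * bet K t l j, fun c => ?_, ?_⟩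
  · rw [Finset.sum_apply]
    exact Submodule.sum_mem _ fun l _ => FilZ_mono K (by omega)
      (FilZ_mul K (hη i l c) ((ins K t).diag l j))
  · rw [xi_mul, Matrix.mulVec_sum]
    refine Finset.sum_congr rfl fun l _ => ?_
    funext a
    simp [hs, e, Matrix.mulVec, dotProduct, add_mul, mul_assoc]⟩

/-- the algebra -/
abbrev Alg := Sg K ⧸ J K

noncomputable instance : Algebra K (Alg K) := inferInstance

theorem FilZ_finite (d : ℤ) : Module.Finite K (FilZ K d) := by
  by_cases hd : d < 0
  · rw [FilZ_neg K hd]; exact Module.Finite.iff_fg.mpr Submodule.fg_bot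
  · have h : FilZ K d = Fil K d.toNat := by simp [FilZ, hd]
    rw [h]; exact Fil_finite K _

instance Sg_finite : Module.Finite K (Sg K) := by
  have hf : ∀ d, Module.Finite K (FilZ K d) := FilZ_finite K
  let f : Sg K →ₗ[K] ((i : Fin 5) → (j : Fin 5) →
      FilZ K ((i : ℤ) - j) × (Fin 2 → FilZ K ((i : ℤ) + 1 - j))) :=
    { toFun := fun s i j => (⟨bet K s i j, (ins K s).diag i j⟩,
        fun a => ⟨xi K s i j a, (ins K s).corner i j a⟩)
      map_add' := fun s t => rfl
      map_smul' := fun r s => rfl }
  refine Module.Finite.of_injective f fun s t h => Sg_ext K (fun i j => ?_) (fun i j => ?_)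
  · exact congrArg (fun z => ((z i j).1 : U K)) h
  · funext a
    exact congrArg (fun z => ((z i j).2 a : U K)) h

instance Alg_finite : Module.Finite K (Alg K) :=
  Module.Finite.of_surjective ((J K).restrictScalars K).mkQ (Submodule.mkQ_surjective _)

/-- five levels of three components -/
abbrev Lvl (G : Type) := Fin 5 → Fin 3 → G

noncomputable instance {G : Type} [AddCommGroup G] [Module (U K) G] :
    Module (Sg K) (Lvl G) where
  smul s v i a := ∑ l, ∑ c, (mat K s) i l a c • v l c
  one_smul v := by
    funext i a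
    show ∑ l, ∑ c, mat K (1 : Sg K) i l a c • v l c = v i a
    rw [Finset.sum_eq_single i, Finset.sum_eq_single a] <;>
      simp +contextual [mat_one, Matrix.one_apply, eq_comm]
  mul_smul s t v := by
    funext i a
    show ∑ l, ∑ c, mat K (s * t) i l a c • v l c =
      ∑ l, ∑ c, (mat K s) i l a c • ∑ l', ∑ c', (mat K t) l l' c c' • v l' c'
    simp only [mat_mul, Matrix.mul_apply, Matrix.sum_apply, Finset.sum_smul, mul_smul,
      Finset.smul_sum]
    refine (Finset.sum_congr rfl fun l' _ => Finset.sum_comm).trans (Finset.sum_comm.trans ?_)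
    refine Finset.sum_congr rfl fun l _ => ?_
    exact (Finset.sum_congr rfl fun l' _ => Finset.sum_comm).trans Finset.sum_comm
  smul_zero s := by
    funext i a
    show ∑ l, ∑ c, (mat K s) i l a c • (0 : G) = 0
    simp
  smul_add s v w := by
    funext i a
    show ∑ l, ∑ c, (mat K s) i l a c • (v l c + w l c) = _ + _
    simp only [smul_add, Finset.sum_add_distrib]
    rfl
  add_smul s t v := by
    funext i a
    show ∑ l, ∑ c, ((mat K s) i l a c + (mat K t) i l a c) • v l c = _ + _
    simp only [add_smul, Finset.sum_add_distrib]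
    rfl
  zero_smul v := by
    funext i a
    show ∑ l, ∑ c, (0 : U K) • v l c = (0 : G)
    simp

end Vale.Agent.P176
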