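import Vale.Agent.P176.Algebra

/-!
Representations: tensoring with the standard module and taking the lower component.
-/

namespace Vale.Agent.P176

open MvPolynomial Matrix

variable (K : Type) [Field K] {m : ℕ} (ρ : U K →ₐ[K] Module.End K (Fin m → K))

/-- a matrix over `U` acting on pairs of vectors -/
noncomputable def mv (A : Matrix (Fin 2) (Fin 2) (U K)) :
    Module.End K (Fin 2 → Fin m → K) :=
  LinearMap.pi fun a => ∑ e, (ρ (A a e)).comp (LinearMap.proj e)

theorem mv_apply (A : Matrix (Fin 2) (Fin 2) (U K)) (v : Fin 2 → Fin m → K) (a : Fin 2) :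
    mv K ρ A v a = ∑ e, ρ (A a e) (v e) := by
  simp [mv, LinearMap.sum_apply]

theorem mv_mul (A B : Matrix (Fin 2) (Fin 2) (U K)) (v : Fin 2 → Fin m → K) :
    mv K ρ (A * B) v = mv K ρ A (mv K ρ B v) := by
  funext a
  simp only [mv_apply, Matrix.mul_apply, map_sum, LinearMap.sum_apply, map_mul,
    Module.End.mul_apply]
  exact Finset.sum_comm

theorem mv_add (A B : Matrix (Fin 2) (Fin 2) (U K)) (v : Fin 2 → Fin m → K) :
    mv K ρ (A + B) v = mv K ρ A v + mv K ρ B v := by
  funext a; simp [mv_apply, Finset.sum_add_distrib]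

theorem mv_algebraMap (r : K) (v : Fin 2 → Fin m → K) :
    mv K ρ (algebraMap K _ r) v = r • v := by
  funext a
  fin_cases a <;> simp [mv_apply, Matrix.algebraMap_matrix_apply]

theorem mv_one (v : Fin 2 → Fin m → K) : mv K ρ 1 v = v := by
  simpa using mv_algebraMap K ρ 1 v

/-- the tensor product with the standard module -/
noncomputable def dM : U K →ₐ[K] Module.End K (Fin 2 → Fin m → K) where
  toFun u := mv K ρ (Delta K u)
  map_one' := by
    apply LinearMap.ext; intro v; rw [map_one, mv_one]; rfl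
  map_mul' u w := by
    apply LinearMap.ext; intro v; rw [map_mul, mv_mul]; rfl
  map_zero' := by
    apply LinearMap.ext; intro v; funext a; simp [mv_apply]
  map_add' u w := by
    apply LinearMap.ext; intro v; rw [map_add, mv_add]; rfl
  commutes' r := by
    apply LinearMap.ext; intro v; rw [AlgHom.commutes, mv_algebraMap]; rfl

theorem dM_apply (u : U K) (v : Fin 2 → Fin m → K) (a : Fin 2) :
    dM K ρ u v a = ∑ e, ρ (Delta K u a e) (v e) := mv_apply K ρ _ v a

/-- the operator whose kernel is the lower component -/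
noncomputable def FM : Module.End K (Fin 2 → Fin m → K) := mv K ρ (Fm K)

theorem FM_dM (u : U K) (v : Fin 2 → Fin m → K) :
    FM K ρ (dM K ρ u v) = dM K ρ u (FM K ρ v) := by
  show mv K ρ _ (mv K ρ _ v) = mv K ρ _ (mv K ρ _ v)
  rw [← mv_mul, ← mv_mul, Fm_Delta]

/-- the Casimir element, shifted by one -/
noncomputable def cas : U K :=
  g K 2 * g K 2 + 2 * (g K 1 * g K 0) + 2 * (g K 0 * g K 1) + 1

theorem Fm_sq : Fm K * Fm K
    = Matrix.diagonal (fun _ : Fin 2 => cas K - g K 3 * g K 3)
      + Matrix.diagonal (fun _ : Fin 2 => 2 * g K 3) * Fm K := by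
  ext i j
  fin_cases i <;> fin_cases j <;>
    simp [Fm, cas, Matrix.mul_apply, Fin.sum_univ_two, add_mul, mul_add, sub_mul, mul_sub,
      two_mul, gHF, gHE, gEF, gZ] <;> abel

theorem Delta_cas : Delta K (cas K)
    = Matrix.diagonal (fun _ : Fin 2 => cas K + 1)
      + (Fm K + Fm K) - Matrix.diagonal (fun _ : Fin 2 => g K 3 + g K 3) := by
  simp only [cas, map_add, map_mul, map_one, map_ofNat, Delta_g]
  ext i j
  fin_cases i <;> fin_cases j <;>
    simp [Fm, Matrix.mul_apply, Fin.sum_univ_two, add_mul, mul_add, sub_mul, mul_sub,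
      two_mul, gHF, gHE, gEF] <;> abel

/-- the central parameters of a representation -/
structure HasParam (m₀ : ℕ) : Prop where
  centre : ρ (g K 3) = (m₀ : K) • (1 : Module.End K (Fin m → K))
  casimir : ρ (cas K) = ((m₀ : K) ^ 2) • (1 : Module.End K (Fin m → K))

theorem FM_sq {m₀ : ℕ} (h : HasParam K ρ m₀) (v : Fin 2 → Fin m → K) :
    FM K ρ (FM K ρ v) = (2 * (m₀ : K)) • FM K ρ v := by
  show mv K ρ _ (mv K ρ _ v) = _
  rw [← mv_mul, Fm_sq, mv_add, mv_mul]
  funext a
  have h0 : ρ (cas K - g K 3 * g K 3) = 0 := by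
    rw [map_sub, map_mul, h.centre, h.casimir, smul_mul_smul_comm, one_mul, pow_two, sub_self]
  fin_cases a <;> simp [mv_apply, FM, Matrix.diagonal, h0, h.centre, two_mul, add_smul]

variable [CharZero K]

theorem trace_mv (A : Matrix (Fin 2) (Fin 2) (U K)) :
    LinearMap.trace K _ (mv K ρ A)
      = LinearMap.trace K _ (ρ (A 0 0)) + LinearMap.trace K _ (ρ (A 1 1)) := by
  have h : mv K ρ A = ∑ a, ∑ e, (LinearMap.single K (fun _ : Fin 2 => Fin m → K) a).comp
      ((ρ (A a e)).comp (LinearMap.proj e)) := by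
    apply LinearMap.ext; intro v
    funext b
    fin_cases b <;> simp [mv_apply, LinearMap.sum_apply, Finset.sum_apply, Pi.single_apply]
  rw [h]
  simp only [map_sum]
  have h' : ∀ a e : Fin 2, LinearMap.trace K _
      ((LinearMap.single K (fun _ : Fin 2 => Fin m → K) a).comp
        ((ρ (A a e)).comp (LinearMap.proj e)))
      = if e = a then LinearMap.trace K _ (ρ (A a e)) else 0 := by
    intro a e
    rw [LinearMap.trace_comp_comm', LinearMap.comp_assoc]
    split_ifs with hh
    · subst hh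
      rw [LinearMap.proj_comp_single_same, LinearMap.comp_id]
    · rw [LinearMap.proj_comp_single_ne K (fun _ : Fin 2 => Fin m → K) e a hh, LinearMap.comp_zero,
        map_zero]
  simp [h', Fin.sum_univ_two]

theorem rank_kernel {m₀ : ℕ} (h : HasParam K ρ m₀) (hm₀ : m₀ ≠ 0) :
    (Module.finrank K (LinearMap.ker (FM K ρ)) : K) * m₀ = m * (m₀ - 1) := by
  have hne : (2 * (m₀ : K)) ≠ 0 := mul_ne_zero two_ne_zero (Nat.cast_ne_zero.mpr hm₀)
  set P : Module.End K (Fin 2 → Fin m → K) := (2 * (m₀ : K))⁻¹ • FM K ρ with hP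
  have hp : LinearMap.IsProj (LinearMap.range (FM K ρ)) P := by
    refine ⟨fun v => ?_, ?_⟩
    · exact Submodule.smul_mem _ _ ⟨v, rfl⟩
    · rintro _ ⟨v, rfl⟩
      rw [hP, LinearMap.smul_apply, FM_sq K ρ h, smul_smul, inv_mul_cancel₀ hne, one_smul]
  have htr := hp.trace
  rw [hP, map_smul, FM, trace_mv, ← map_add, ← map_add] at htr
  have e : Fm K 0 0 + Fm K 1 1 = 1 + 1 + (g K 3 + g K 3) := by simp [Fm]; abel
  rw [e] at htr
  simp only [map_add, map_one, h.centre, map_smul, LinearMap.trace_one,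
    Module.finrank_fin_fun] at htr
  have hsum := LinearMap.finrank_range_add_finrank_ker (FM K ρ)
  have h2m : Module.finrank K (Fin 2 → Fin m → K) = 2 * m := by
    simp [Module.finrank_pi_fintype]
  rw [h2m] at hsum
  have hsum' : (Module.finrank K (LinearMap.range (FM K ρ)) : K)
      + (Module.finrank K (LinearMap.ker (FM K ρ)) : K) = 2 * m := by exact_mod_cast hsum
  rw [smul_eq_mul, inv_mul_eq_iff_eq_mul₀ hne, smul_eq_mul] at htr
  unfold FM at *
  linear_combination (1 / 2 : K) * htr + (m₀ : K) * hsum'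

/-- An embedding realising a representation on the lower component. -/
structure IsLower {n : ℕ} (ρ' : U K →ₐ[K] Module.End K (Fin n → K))
    (i : (Fin n → K) →ₗ[K] (Fin 2 → Fin m → K)) : Prop where
  inj : Function.Injective i
  range_eq : LinearMap.range i = LinearMap.ker (FM K ρ)
  equivariant : ∀ u x, i (ρ' u x) = dM K ρ u (i x)

theorem exists_lower {m₀ : ℕ} (h : HasParam K ρ m₀) (hm₀ : 1 ≤ m₀) :
    ∃ (n : ℕ) (ρ' : U K →ₐ[K] Module.End K (Fin n → K))
      (i : (Fin n → K) →ₗ[K] (Fin 2 → Fin m → K)),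
      IsLower K ρ ρ' i ∧ HasParam K ρ' (m₀ - 1) ∧ (n : K) * m₀ = m * (m₀ - 1) := by
  let W := LinearMap.ker (FM K ρ)
  let e := (Module.finBasis K W).equivFun
  have hW : ∀ u, ∀ x ∈ W, dM K ρ u x ∈ W := by
    intro u x hx
    rw [LinearMap.mem_ker] at hx ⊢
    rw [FM_dM, hx, map_zero]
  let i : (Fin (Module.finrank K W) → K) →ₗ[K] (Fin 2 → Fin m → K) :=
    W.subtype.comp e.symm.toLinearMap
  let f : U K → Module.End K (Fin (Module.finrank K W) → K) := fun u =>
    e.toLinearMap.comp (((dM K ρ u).restrict (hW u)).comp e.symm.toLinearMap)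
  have hinj : Function.Injective i := Subtype.val_injective.comp e.symm.injective
  have hif : ∀ u x, i (f u x) = dM K ρ u (i x) := fun u x => by simp [i, f]
  let ρ' : U K →ₐ[K] Module.End K (Fin (Module.finrank K W) → K) :=
    { toFun := f
      map_one' := LinearMap.ext fun x => hinj (by simp [hif])
      map_mul' := fun u w => LinearMap.ext fun x => hinj (by simp [hif])
      map_zero' := LinearMap.ext fun x => hinj (by simp [hif])
      map_add' := fun u w => LinearMap.ext fun x => hinj (by simp [hif])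
      commutes' := fun r => LinearMap.ext fun x => hinj (by simp [hif, Module.algebraMap_end_apply]) }
  have hρ' : ∀ u x, i (ρ' u x) = dM K ρ u (i x) := hif
  refine ⟨_, ρ', i, ⟨hinj, ?_, hρ'⟩, ⟨?_, ?_⟩, rank_kernel K ρ h (by omega)⟩
  · rw [LinearMap.range_comp, LinearEquiv.range, Submodule.map_top, Submodule.range_subtype]
  · apply LinearMap.ext; intro x; apply hinj
    rw [hρ', LinearMap.smul_apply, map_smul, Module.End.one_apply]
    funext a
    rw [dM_apply, Delta_g]
    fin_cases a <;>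
      simp [Fin.sum_univ_two, h.centre, Nat.cast_sub hm₀, sub_smul]
  · apply LinearMap.ext; intro x; apply hinj
    rw [hρ', LinearMap.smul_apply, map_smul, Module.End.one_apply]
    have hx : FM K ρ (i x) = 0 := LinearMap.mem_ker.mp (e.symm x).2
    show mv K ρ (Delta K (cas K)) (i x) = _
    rw [Delta_cas, sub_eq_add_neg, mv_add, mv_add, mv_add]
    rw [show mv K ρ (Fm K) (i x) = FM K ρ (i x) from rfl, hx, add_zero, add_zero]
    funext a
    fin_cases a <;>
      · simp [mv_apply, Matrix.diagonal, h.centre, h.casimir, Nat.cast_sub hm₀]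
        module

/-- standard operators -/
noncomputable def stdOp (m : ℕ) : Fin 4 → Module.End K (Fin m → K)
  | 0 => LinearMap.pi fun i => if h : 1 ≤ (i : ℕ) then
      LinearMap.proj (⟨(i : ℕ) - 1, by omega⟩ : Fin m) else 0
  | 1 => LinearMap.pi fun i => if h : (i : ℕ) + 1 < m then
      (((i : ℕ) + 1 : K) * ((m : K) - (i : ℕ) - 1)) •
        LinearMap.proj (⟨(i : ℕ) + 1, h⟩ : Fin m) else 0
  | 2 => LinearMap.pi fun i => ((m : K) - 1 - 2 * (i : ℕ)) • LinearMap.proj i
  | 3 => (m : K) • 1

theorem exists_std (m : ℕ) :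
    ∃ ρ : U K →ₐ[K] Module.End K (Fin m → K), HasParam K ρ m := by
  let ext0 : (Fin m → K) → ℕ → K := fun v i => if h : i < m then v ⟨i, h⟩ else 0
  have hF : ∀ v (i : Fin m), stdOp K m 0 v i
      = if 1 ≤ (i : ℕ) then ext0 v ((i : ℕ) - 1) else 0 := by
    intro v i
    simp only [stdOp, LinearMap.pi_apply, ext0]
    by_cases h : 1 ≤ (i : ℕ)
    · rw [dif_pos h, if_pos h, dif_pos (by omega)]; rfl
    · rw [dif_neg h, if_neg h]; rfl
  have hE : ∀ v (i : Fin m), stdOp K m 1 v i
      = (((i : ℕ) + 1 : K) * ((m : K) - (i : ℕ) - 1)) * ext0 v ((i : ℕ) + 1) := by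
    intro v i
    simp only [stdOp, LinearMap.pi_apply, ext0]
    split_ifs <;> simp
  have hH : ∀ v (i : Fin m), stdOp K m 2 v i = ((m : K) - 1 - 2 * (i : ℕ)) * v i := by
    intro v i; simp [stdOp]
  have hv : ∀ v (i : Fin m), ext0 v (i : ℕ) = v i := fun v i => by simp [ext0]
  have hFE : ∀ v (i : Fin m), stdOp K m 0 (stdOp K m 1 v) i
      = ((i : ℕ) : K) * ((m : K) - (i : ℕ)) * v i := by
    intro v i
    rw [hF]
    by_cases h : 1 ≤ (i : ℕ)
    · have h1 : (i : ℕ) - 1 < m := by omega
      rw [if_pos h, show ext0 (stdOp K m 1 v) ((i : ℕ) - 1)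
        = stdOp K m 1 v ⟨(i : ℕ) - 1, h1⟩ by simp [ext0, h1], hE]
      simp only [Nat.sub_add_cancel h, hv, Nat.cast_sub h, Nat.cast_one]
      ring
    · rw [if_neg h]
      have : (i : ℕ) = 0 := by omega
      simp [this]
  have hEF : ∀ v (i : Fin m), stdOp K m 1 (stdOp K m 0 v) i
      = (((i : ℕ) + 1 : K) * ((m : K) - (i : ℕ) - 1)) * v i := by
    intro v i
    rw [hE]
    by_cases h : (i : ℕ) + 1 < m
    · rw [show ext0 (stdOp K m 0 v) ((i : ℕ) + 1)
        = stdOp K m 0 v ⟨(i : ℕ) + 1, h⟩ by simp [ext0, h], hF]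
      simp [hv]
    · have h2 : (m : K) = (i : ℕ) + 1 := by
        have : m = (i : ℕ) + 1 := by omega
        exact_mod_cast this
      rw [h2]; simp
  refine ⟨lift K (stdOp K m) ?_ ?_ ?_ ?_, ⟨?_, ?_⟩⟩
  · apply LinearMap.ext; intro v; funext i
    simp only [two_mul, LinearMap.sub_apply, LinearMap.add_apply, Pi.sub_apply, Pi.add_apply,
      Module.End.mul_apply, hH, hF]
    by_cases h : 1 ≤ (i : ℕ)
    · have h1 : (i : ℕ) - 1 < m := by omega
      simp only [if_pos h, ext0, dif_pos h1, hH, Nat.cast_sub h, Nat.cast_one]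
      ring
    · simp [if_neg h]
  · apply LinearMap.ext; intro v; funext i
    simp only [two_mul, LinearMap.add_apply, Pi.add_apply, Module.End.mul_apply, hH, hE]
    by_cases h : (i : ℕ) + 1 < m
    · simp only [ext0, dif_pos h, hH, Nat.cast_add, Nat.cast_one]
      ring
    · simp only [ext0, dif_neg h]; ring
  · apply LinearMap.ext; intro v; funext i
    simp only [LinearMap.add_apply, Pi.add_apply, Module.End.mul_apply, hEF, hFE, hH]
    ring
  · intro j
    apply LinearMap.ext; intro v
    simp [stdOp, map_smul]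
  · rw [lift_g]; rfl
  · simp only [cas, map_add, map_mul, map_one, map_ofNat, lift_g]
    apply LinearMap.ext; intro v; funext i
    simp only [two_mul, LinearMap.add_apply, Pi.add_apply, Module.End.mul_apply,
      Module.End.one_apply, LinearMap.smul_apply, Pi.smul_apply, smul_eq_mul, hEF, hFE, hH]
    ring

end Vale.Agent.P176
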