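import Vale.Agent.P176.Modules
import Vale.Agent.P176.Reps

/-!
The complex of projective modules over the finite-dimensional algebra attached to a representation,
and its homology.
-/

namespace Vale.Agent.P176

open MvPolynomial Matrix

variable (K : Type) [Field K] {m : ℕ} (ρ : U K →ₐ[K] Module.End K (Fin m → K))

theorem raise_mem {a b : ℕ} (f : (Fin a → Fin m → U K) →ₗ[U K] (Fin b → Fin m → U K))
    (h : ∀ (k : ℕ) v, (∀ i j, v i j ∈ Fil K k) → ∀ i j, f v i j ∈ Fil K (k + 1))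
    {d e : ℤ} (v : Fin a → Fin m → U K) (hv : v ∈ FV K a m d) (he : e = d + 1) :
    f v ∈ FV K b m e := by
  subst he
  rw [mem_FV] at hv ⊢
  by_cases hd : d < 0
  · have : v = 0 := by
      funext i j
      have := hv i j
      rwa [FilZ_neg K hd, Submodule.mem_bot] at this
    subst this
    intro i j; simp
  · obtain ⟨k, rfl⟩ := Int.eq_ofNat_of_zero_le (not_lt.mp hd)
    intro i j
    rw [show (k : ℤ) + 1 = ((k + 1 : ℕ) : ℤ) from rfl, FilZ_natCast]
    exact h k v (fun i j => by simpa [FilZ_natCast] using hv i j) i j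

noncomputable def f0 : (Fin 4 → Fin m → U K) →ₗ[U K] (Fin 1 → Fin m → U K) :=
  LinearMap.pi fun _ => cd0 (RR K ρ)

noncomputable def f1 : (Fin 6 → Fin m → U K) →ₗ[U K] (Fin 4 → Fin m → U K) := cd1 (RR K ρ) 1

noncomputable def f2 : (Fin 4 → Fin m → U K) →ₗ[U K] (Fin 6 → Fin m → U K) := cd2 (RR K ρ) 1

noncomputable def f3 : (Fin 1 → Fin m → U K) →ₗ[U K] (Fin 4 → Fin m → U K) :=
  (cd3 (RR K ρ)).comp (LinearMap.proj 0)

theorem f0_mem (d : ℤ) (v : Fin 4 → Fin m → U K) (hv : v ∈ FV K 4 m (d - ((1 : Fin 5) : ℕ))) :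
    f0 K ρ v ∈ FV K 1 m (d - ((0 : Fin 5) : ℕ)) :=
  raise_mem K _ (fun k v hv _ j => (top_cd0 K ρ hv j).1) v hv (by simp)

theorem f1_mem (d : ℤ) (v : Fin 6 → Fin m → U K) (hv : v ∈ FV K 6 m (d - ((2 : Fin 5) : ℕ))) :
    f1 K ρ v ∈ FV K 4 m (d - ((1 : Fin 5) : ℕ)) :=
  raise_mem K _ (fun k v hv i j => (top_cd1 K ρ hv i j).1) v hv (by simp; ring)

theorem f2_mem (d : ℤ) (v : Fin 4 → Fin m → U K) (hv : v ∈ FV K 4 m (d - ((3 : Fin 5) : ℕ))) :
    f2 K ρ v ∈ FV K 6 m (d - ((2 : Fin 5) : ℕ)) :=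
  raise_mem K _ (fun k v hv i j => (top_cd2 K ρ hv i j).1) v hv (by simp; ring)

theorem f3_mem (d : ℤ) (v : Fin 1 → Fin m → U K) (hv : v ∈ FV K 1 m (d - ((4 : Fin 5) : ℕ))) :
    f3 K ρ v ∈ FV K 4 m (d - ((3 : Fin 5) : ℕ)) :=
  raise_mem K _ (fun k v hv i j => (top_cd3 K ρ (hv 0) i j).1) v hv (by simp; ring)

abbrev Q0 (m : ℕ) := Q K 0 1 m
abbrev Q1 (m : ℕ) := Q K 1 4 m
abbrev Q2 (m : ℕ) := Q K 2 6 m
abbrev Q3 (m : ℕ) := Q K 3 4 m
abbrev Q4 (m : ℕ) := Q K 4 1 m

noncomputable def d0 : Q1 K m →ₗ[Alg K] Q0 K m := qmap K (f0 K ρ) (f0_mem K ρ)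
noncomputable def d1 : Q2 K m →ₗ[Alg K] Q1 K m := qmap K (f1 K ρ) (f1_mem K ρ)
noncomputable def d2 : Q3 K m →ₗ[Alg K] Q2 K m := qmap K (f2 K ρ) (f2_mem K ρ)
noncomputable def d3 : Q4 K m →ₗ[Alg K] Q3 K m := qmap K (f3 K ρ) (f3_mem K ρ)

section general

variable {K} {a b c : ℕ} {p q r : Fin 5}

theorem qmap_eq_zero {f : (Fin a → Fin m → U K) →ₗ[U K] (Fin b → Fin m → U K)}
    {hf : ∀ (d : ℤ) v, v ∈ FV K a m (d - p) → f v ∈ FV K b m (d - q)} {v : qhat K p a m} :
    qmap K f hf (mkQ K p a m v) = 0 ↔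
      (∀ i, f ((v : Lvl (Fin a → Fin m → U K)) i last3) = 0) ∧
      ∀ i : Fin 5, ∃ η : Fin 2 → (Fin b → Fin m → U K), (∀ e, η e ∈ FV K b m ((i : ℤ) - q)) ∧
        ∀ e, f ((v : Lvl (Fin a → Fin m → U K)) i e.castSucc) = ∑ e', Fm K e e' • η e' :=
  mkQ_eq_zero K q b m

theorem FmG_inj [CharZero K] {d : ℤ} (η : Fin 2 → Fin a → Fin m → U K)
    (hη : ∀ e, η e ∈ FV K a m d) (h : ∀ e, ∑ e', Fm K e e' • η e' = 0) : η = 0 := by
  funext e k j
  refine congrFun (Fm_injective K (d := d) (fun e => η e k j)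
    (fun e => mem_FV K |>.mp (hη e) k j) ?_) e
  funext e'
  have := congrFun (congrFun (h e') k) j
  simpa [Matrix.mulVec, dotProduct, Finset.sum_apply] using this

/-- exactness of the induced complex from exactness in the filtered complex -/
theorem qmap_exact [CharZero K] {l : ℕ} {o : Fin 5}
    (f : (Fin a → Fin m → U K) →ₗ[U K] (Fin b → Fin m → U K))
    (g : (Fin b → Fin m → U K) →ₗ[U K] (Fin c → Fin m → U K))
    (h : (Fin c → Fin m → U K) →ₗ[U K] (Fin l → Fin m → U K))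
    (hf : ∀ (d : ℤ) v, v ∈ FV K a m (d - p) → f v ∈ FV K b m (d - q))
    (hg : ∀ (d : ℤ) v, v ∈ FV K b m (d - q) → g v ∈ FV K c m (d - r))
    (hh : ∀ (d : ℤ) v, v ∈ FV K c m (d - r) → h v ∈ FV K l m (d - o))
    (hgf : ∀ v, g (f v) = 0) (hhg : ∀ v, h (g v) = 0)
    (exf : ∀ (d : ℤ) v, v ∈ FV K b m (d - q) → g v = 0 → ∃ w ∈ FV K a m (d - p), f w = v)
    (exg : ∀ (d : ℤ) v, v ∈ FV K c m (d - r) → h v = 0 → ∃ w ∈ FV K b m (d - q), g w = v) :
    LinearMap.ker (qmap K g hg) = LinearMap.range (qmap K f hf) := by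
  apply le_antisymm
  · intro x hx
    obtain ⟨v, rfl⟩ := Submodule.Quotient.mk_surjective _ x
    rw [LinearMap.mem_ker] at hx
    obtain ⟨h1, h2⟩ := qmap_eq_zero.mp hx
    choose η hη e using h2
    have hη0 : ∀ (i : Fin 5) e, h (η i e) = 0 := by
      intro i e0
      have := FmG_inj (fun e => h (η i e)) (fun e => hh _ _ (hη i e)) (fun e' => ?_)
      · exact congrFun this e0
      · have := congrArg h (e i e')
        rw [hhg, map_sum] at this
        simpa [map_smul] using this.symm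
    choose y hy hgy using fun (i : Fin 5) e => exg (i : ℤ) (η i e) (hη i e) (hη0 i e)
    choose w hw hfw using fun (i : Fin 5) => exf (i : ℤ) _ (v.2.1 i) (h1 i)
    have hsub : ∀ (i : Fin 5) e0, g ((v : Lvl (Fin b → Fin m → U K)) i e0.castSucc
        - ∑ e', Fm K e0 e' • y i e') = 0 := by
      intro i e0
      rw [map_sub, map_sum, e i e0]
      simp [map_smul, hgy]
    have hmem : ∀ (i : Fin 5) e0, (v : Lvl (Fin b → Fin m → U K)) i e0.castSucc
        - ∑ e', Fm K e0 e' • y i e' ∈ FV K b m ((i : ℤ) + 1 - q) := fun i e0 =>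
      sub_mem (v.2.2 i e0) (Submodule.sum_mem _ fun e' _ =>
        FV_smul K (FmZ_mem K e0 e') (hy i e') (by omega))
    choose w' hw' hfw' using fun (i : Fin 5) e0 => exf ((i : ℤ) + 1) _ (hmem i e0) (hsub i e0)
    let W : Lvl (Fin a → Fin m → U K) := fun i e => Fin.lastCases (w i) (fun e => w' i e) e
    have hW : W ∈ qhat K p a m :=
      ⟨fun i => by simpa [W] using hw i, fun i e => by simpa [W] using hw' i e⟩
    refine ⟨mkQ K p a m ⟨W, hW⟩, (Submodule.Quotient.eq _).mpr ⟨fun i => ?_, fun i => ?_⟩⟩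
    · show f (W i last3) - (v : Lvl (Fin b → Fin m → U K)) i last3 = 0
      simp [W, hfw]
    · refine ⟨fun e => -(y i e), fun e => Submodule.neg_mem _ (hy i e), fun e => ?_⟩
      show f (W i e.castSucc) - (v : Lvl (Fin b → Fin m → U K)) i e.castSucc
        = ∑ e', Fm K e e' • -(y i e')
      simp [W, hfw', smul_neg, Finset.sum_neg_distrib]
  · rintro x ⟨y, rfl⟩
    obtain ⟨v, rfl⟩ := Submodule.Quotient.mk_surjective _ y
    rw [LinearMap.mem_ker]
    show mkQ K r c m _ = 0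
    rw [mkQ_eq_zero]
    refine ⟨fun i => hgf _, fun i => ⟨0, fun e => zero_mem _, fun e => ?_⟩⟩
    show g (f _) = _
    simp [hgf]

end general

theorem f0_f1 (v : Fin 6 → Fin m → U K) : f0 K ρ (f1 K ρ v) = 0 := by
  funext _; exact cd0_cd1 (isRight K ρ) v

theorem f1_f2 (v : Fin 4 → Fin m → U K) : f1 K ρ (f2 K ρ v) = 0 := cd1_cd2 (isRight K ρ) v

theorem f2_f3 (v : Fin 1 → Fin m → U K) : f2 K ρ (f3 K ρ v) = 0 := cd2_cd3 (isRight K ρ) _

variable [CharZero K]

theorem exact_f0 (d : ℤ) (v : Fin 4 → Fin m → U K)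
    (hv : v ∈ FV K 4 m (d - ((1 : Fin 5) : ℕ))) (h : f0 K ρ v = 0) :
    ∃ w ∈ FV K 6 m (d - ((2 : Fin 5) : ℕ)), f1 K ρ w = v := by
  obtain ⟨w, hw, e⟩ := exact_cd0 K ρ _ v (mem_FV K |>.mp hv) (congrFun h 0)
  exact ⟨w, mem_FV K |>.mpr fun i j => FilZ_mono K (by simp; omega) (hw i j), e⟩

theorem exact_f1 (d : ℤ) (v : Fin 6 → Fin m → U K)
    (hv : v ∈ FV K 6 m (d - ((2 : Fin 5) : ℕ))) (h : f1 K ρ v = 0) :
    ∃ w ∈ FV K 4 m (d - ((3 : Fin 5) : ℕ)), f2 K ρ w = v := by
  obtain ⟨w, hw, e⟩ := exact_cd1 K ρ _ v (mem_FV K |>.mp hv) h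
  exact ⟨w, mem_FV K |>.mpr fun i j => FilZ_mono K (by simp; omega) (hw i j), e⟩

theorem exact_f2 (d : ℤ) (v : Fin 4 → Fin m → U K)
    (hv : v ∈ FV K 4 m (d - ((3 : Fin 5) : ℕ))) (h : f2 K ρ v = 0) :
    ∃ w ∈ FV K 1 m (d - ((4 : Fin 5) : ℕ)), f3 K ρ w = v := by
  obtain ⟨w, hw, e⟩ := exact_cd2 K ρ _ v (mem_FV K |>.mp hv) h
  exact ⟨fun _ => w, mem_FV K |>.mpr fun i j => FilZ_mono K (by simp; omega) (hw j), e⟩

theorem f3_inj (d : ℤ) (v : Fin 1 → Fin m → U K) (hv : v ∈ FV K 1 m d)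
    (h : f3 K ρ v = 0) : v = 0 := by
  funext i
  rw [Subsingleton.elim i 0]
  exact cd3_injective K ρ d (v 0) (fun j => mem_FV K |>.mp hv 0 j) h

theorem ker_d1 : LinearMap.ker (d1 K ρ) = LinearMap.range (d2 K ρ) :=
  qmap_exact (f2 K ρ) (f1 K ρ) (f0 K ρ) (f2_mem K ρ) (f1_mem K ρ) (f0_mem K ρ)
    (f1_f2 K ρ) (f0_f1 K ρ) (exact_f1 K ρ) (exact_f0 K ρ)

theorem ker_d2 : LinearMap.ker (d2 K ρ) = LinearMap.range (d3 K ρ) :=
  qmap_exact (f3 K ρ) (f2 K ρ) (f1 K ρ) (f3_mem K ρ) (f2_mem K ρ) (f1_mem K ρ)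
    (f2_f3 K ρ) (f1_f2 K ρ) (exact_f2 K ρ) (exact_f1 K ρ)

theorem ker_d3 : LinearMap.ker (d3 K ρ) = ⊥ := by
  rw [show LinearMap.ker (d3 K ρ) = _ from qmap_exact (p := (4 : Fin 5))
    (0 : (Fin 0 → Fin m → U K) →ₗ[U K] (Fin 1 → Fin m → U K))
    (f3 K ρ) (f2 K ρ) (fun d v _ => zero_mem _) (f3_mem K ρ) (f2_mem K ρ)
    (fun v => map_zero _) (f2_f3 K ρ)
    (fun d v hv h => ⟨0, zero_mem _, by rw [map_zero, f3_inj K ρ _ v hv h]⟩) (exact_f2 K ρ),
    eq_bot_iff]
  rintro x ⟨y, rfl⟩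
  obtain ⟨v, rfl⟩ := Submodule.Quotient.mk_surjective _ y
  rw [Submodule.mem_bot]
  refine (qmap_eq_zero (K := K)).mpr ⟨fun i => rfl, fun i => ⟨0, fun e => zero_mem _, fun e => ?_⟩⟩
  simp

omit [CharZero K] in
/-- augmentation on the first level -/
theorem aug_sum_smul {ι : Type} (s : Finset ι) (u : ι → U K) (x : ι → Fin m → U K) :
    aug K ρ (∑ l ∈ s, u l • x l) = ∑ l ∈ s, ρ (u l) (aug K ρ (x l)) := by
  classical
  induction s using Finset.induction_on with
  | empty => simp [aug]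
  | insert l s hl ih => rw [Finset.sum_insert hl, Finset.sum_insert hl, aug_add, aug_smul, ih]

omit [CharZero K] in
theorem aug_zero : aug K ρ 0 = 0 := by simp [aug]

omit [CharZero K] in
theorem aug_f0 (v : Fin 4 → Fin m → U K) : aug K ρ (f0 K ρ v 0) = 0 := by
  show aug K ρ (cd0 (RR K ρ) v) = 0
  simp [cd0, aug_add, aug_Rop]

/-- the augmentation to the module of the representation -/
noncomputable def dAug : Q0 K m →ₗ[Alg K] Good K ρ :=
  toA K (Q_mk_smul K 0 1 m) (Good_mk_smul K ρ)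
    (Submodule.liftQ _
      { toFun := fun v i => aug K ρ ((v : Lvl (Fin 1 → Fin m → U K)) i last3 0)
        map_add' := fun v w => by funext i; exact aug_add K ρ _ _
        map_smul' := fun s v => by
          funext i
          show aug K ρ ((s • (v : Lvl (Fin 1 → Fin m → U K))) i last3 0) = _
          rw [lvl_smul_last, Finset.sum_apply]
          simp only [Pi.smul_apply, aug_sum_smul, RingHom.id_apply]
          rfl }
      (by
        rintro v ⟨h1, -⟩
        funext i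
        show aug K ρ ((v : Lvl (Fin 1 → Fin m → U K)) i last3 0) = 0
        rw [show (v : Lvl (Fin 1 → Fin m → U K)) i last3 = 0 from h1 i]
        exact aug_zero K ρ))

theorem dAug_mk (v : qhat K 0 1 m) (i : Fin 5) :
    dAug K ρ (mkQ K 0 1 m v) i = aug K ρ ((v : Lvl (Fin 1 → Fin m → U K)) i last3 0) := rfl

omit [CharZero K] in
theorem const_mem (c : Fin m → K) {d : ℤ} (hd : 0 ≤ d) :
    (fun _ : Fin 1 => fun j => algebraMap K (U K) (c j)) ∈ FV K 1 m d := by
  rw [mem_FV]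
  intro _ j
  refine FilZ_mono K hd ?_
  rw [show (0 : ℤ) = ((0 : ℕ) : ℤ) from rfl, FilZ_natCast]
  exact algebraMap_mem_Fil K _ 0

theorem dAug_surjective : Function.Surjective (dAug K ρ) := by
  intro w
  let V : Lvl (Fin 1 → Fin m → U K) := fun i e =>
    Fin.lastCases (fun _ j => algebraMap K (U K) (w i j)) (fun _ => 0) e
  have hV : V ∈ qhat K 0 1 m :=
    ⟨fun i => by simpa [V] using const_mem K (w i) (d := (i : ℤ)) (by omega),
      fun i e => by simp [V]⟩
  refine ⟨mkQ K 0 1 m ⟨V, hV⟩, ?_⟩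
  funext i
  rw [dAug_mk]
  simp [V, aug_algebraMap]

variable {n : ℕ} {ρ} {ρ' : U K →ₐ[K] Module.End K (Fin n → K)}
  {ι' : (Fin n → K) →ₗ[K] (Fin 2 → Fin m → K)} (hl : IsLower K ρ ρ' ι')

omit [CharZero K] in
theorem aug_Fm (η : Fin 2 → Fin 1 → Fin m → U K) :
    (fun e => aug K ρ ((∑ e', Fm K e e' • η e') 0)) = FM K ρ (fun e => aug K ρ (η e 0)) := by
  funext e
  rw [Finset.sum_apply, FM, mv_apply]
  simp [Pi.smul_apply, aug_sum_smul, -Fin.sum_univ_two]

omit [CharZero K] in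
include hl in
theorem exists_pre {y : Fin 2 → Fin m → K} (hy : FM K ρ y = 0) : ∃ x, ι' x = y := by
  have : y ∈ LinearMap.range ι' := by rw [hl.range_eq]; exact hy
  exact this

variable {m₀ : ℕ} (hp : HasParam K ρ m₀) (hm₀ : m₀ ≠ 0)

/-- the operator onto the lower component -/
noncomputable def GM (m₀ : ℕ) (ρ : U K →ₐ[K] Module.End K (Fin m → K)) :
    Module.End K (Fin 2 → Fin m → K) :=
  (2 * (m₀ : K)) • 1 - FM K ρ

omit [CharZero K] in
theorem GM_FM (hp : HasParam K ρ m₀) (v : Fin 2 → Fin m → K) :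
    FM K ρ (GM K m₀ ρ v) = 0 ∧ GM K m₀ ρ (FM K ρ v) = 0 := by
  simp [GM, FM_sq K ρ hp, map_sub]

include hl hp hm₀ in
theorem exists_theta0 : ∃ θ : LinearMap.ker (dAug K ρ) →ₗ[Alg K] Good K ρ',
    Function.Surjective θ ∧ ∀ x, θ x = 0 ↔ (x : Q0 K m) ∈ LinearMap.range (d0 K ρ) := by
  classical
  have hne : (2 * (m₀ : K)) ≠ 0 := mul_ne_zero two_ne_zero (Nat.cast_ne_zero.mpr hm₀)
  let Φ : qhat K 0 1 m → Fin 5 → Fin 2 → Fin m → K := fun v i e =>
    aug K ρ ((v : Lvl (Fin 1 → Fin m → U K)) i e.castSucc 0)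
  have hj : ∀ v w : qhat K 0 1 m, mkQ K 0 1 m v = mkQ K 0 1 m w →
      ∀ i, GM K m₀ ρ (Φ v i) = GM K m₀ ρ (Φ w i) := by
    intro v w h i
    obtain ⟨-, h2⟩ := (Submodule.Quotient.eq _).mp h
    obtain ⟨η, -, e⟩ := h2 i
    have : Φ v i - Φ w i = FM K ρ (fun e => aug K ρ (η e 0)) := by
      rw [← aug_Fm]
      funext c
      show aug K ρ _ - aug K ρ _ = _
      rw [← aug_sub, ← e c]
      rfl
    rw [← sub_eq_zero, ← map_sub, this]
    exact (GM_FM K hp _).2
  have hpre : ∀ (x : LinearMap.ker (dAug K ρ)) (i : Fin 5), ∃ y : Fin n → K,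
      ∀ v, mkQ K 0 1 m v = (x : Q0 K m) → ι' y = GM K m₀ ρ (Φ v i) := by
    intro x i
    obtain ⟨v, hv⟩ := Submodule.Quotient.mk_surjective _ (x : Q0 K m)
    obtain ⟨y, hy⟩ := exists_pre K hl (GM_FM K hp (Φ v i)).1
    exact ⟨y, fun w hw => by rw [hy]; exact hj v w (hv.trans hw.symm) i⟩
  choose th hth using hpre
  have hrep : ∀ x : LinearMap.ker (dAug K ρ), ∃ v, mkQ K 0 1 m v = (x : Q0 K m) :=
    fun x => Submodule.Quotient.mk_surjective _ _
  let θ : LinearMap.ker (dAug K ρ) →ₗ[Alg K] Good K ρ' :=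
    { toFun := fun x i => th x i
      map_add' := fun x y => by
        obtain ⟨v, hv⟩ := hrep x
        obtain ⟨w, hw⟩ := hrep y
        have hvw : mkQ K 0 1 m (v + w) = ((x + y : LinearMap.ker (dAug K ρ)) : Q0 K m) := by
          simp [mkQ, Submodule.Quotient.mk_add, hv, hw]
        funext i
        show th (x + y) i = th x i + th y i
        apply hl.inj
        rw [map_add, hth _ i _ hvw, hth _ i _ hv, hth _ i _ hw, ← map_add]
        congr 1
        funext e
        exact aug_add K ρ _ _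
      map_smul' := fun r x => by
        obtain ⟨s, rfl⟩ := Ideal.Quotient.mk_surjective r
        obtain ⟨v, hv⟩ := hrep x
        have hsv : mkQ K 0 1 m (s • v)
            = ((Ideal.Quotient.mk (J K) s • x : LinearMap.ker (dAug K ρ)) : Q0 K m) := by
          rw [Submodule.coe_smul, Q_mk_smul, ← hv]; rfl
        have hk : ∀ l, aug K ρ ((v : Lvl (Fin 1 → Fin m → U K)) l last3 0) = 0 := fun l => by
          rw [← dAug_mk, hv, show dAug K ρ (x : Q0 K m) = 0 from x.2]; rfl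
        funext i
        show th _ i = (Ideal.Quotient.mk (J K) s • (show Good K ρ' from fun i => th x i)) i
        rw [Good_mk_smul, good_smul]
        apply hl.inj
        rw [hth _ i _ hsv, map_sum]
        simp only [hl.equivariant, hth _ _ _ hv]
        have hΦ : Φ (s • v) i = ∑ l, dM K ρ (bet K s i l) (Φ v l) := by
          funext e
          show aug K ρ ((s • (v : Lvl (Fin 1 → Fin m → U K))) i e.castSucc 0) = _
          rw [lvl_smul_cast, Finset.sum_apply, Finset.sum_apply]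
          simp only [Pi.add_apply, Finset.sum_apply, Pi.smul_apply]
          rw [show (∑ l, ((∑ e', Delta K (bet K s i l) e e' •
              (v : Lvl (Fin 1 → Fin m → U K)) l e'.castSucc 0)
              + xi K s i l e • (v : Lvl (Fin 1 → Fin m → U K)) l last3 0))
            = (∑ l, ∑ e', Delta K (bet K s i l) e e' •
              (v : Lvl (Fin 1 → Fin m → U K)) l e'.castSucc 0)
              + ∑ l, xi K s i l e • (v : Lvl (Fin 1 → Fin m → U K)) l last3 0
            from Finset.sum_add_distrib, aug_add]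
          rw [aug_sum_smul K ρ _ _ (fun l => (v : Lvl (Fin 1 → Fin m → U K)) l last3 0)]
          simp only [hk, map_zero, Finset.sum_const_zero, add_zero]
          rw [← Fintype.sum_prod_type', aug_sum_smul, Fintype.sum_prod_type]
          simp [dM_apply, Φ]
        rw [hΦ, map_sum]
        refine Finset.sum_congr rfl fun l _ => ?_
        simp [GM, FM_dM] }
  refine ⟨θ, fun y => ?_, fun x => ⟨fun h => ?_, fun h => ?_⟩⟩
  · let z : Fin 5 → Fin 2 → Fin m → K := fun i => (2 * (m₀ : K))⁻¹ • ι' (y i)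
    let V : Lvl (Fin 1 → Fin m → U K) := fun i e =>
      Fin.lastCases 0 (fun e => fun _ j => algebraMap K (U K) (z i e j)) e
    have hV : V ∈ qhat K 0 1 m :=
      ⟨fun i => by simp [V], fun i e => by
        simpa [V] using const_mem K (z i e) (d := (i : ℤ) + 1) (by omega)⟩
    have hk : mkQ K 0 1 m ⟨V, hV⟩ ∈ LinearMap.ker (dAug K ρ) := by
      rw [LinearMap.mem_ker]
      funext i
      rw [dAug_mk]
      simp [V, aug_zero]
      rfl
    refine ⟨⟨_, hk⟩, ?_⟩
    funext i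
    show th _ i = y i
    apply hl.inj
    rw [hth _ i ⟨V, hV⟩ rfl]
    have hz : Φ ⟨V, hV⟩ i = z i := by
      funext e
      simp [Φ, V, aug_algebraMap]
    have hker : FM K ρ (ι' (y i)) = 0 := by
      have : ι' (y i) ∈ LinearMap.range ι' := ⟨_, rfl⟩
      rw [hl.range_eq] at this; exact this
    rw [hz]
    simp only [z, GM, LinearMap.sub_apply, LinearMap.smul_apply, Module.End.one_apply, map_smul,
      hker, smul_zero, sub_zero, smul_smul, inv_mul_cancel₀ hne, mul_inv_cancel₀ hne, one_smul]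
  · obtain ⟨v, hv⟩ := hrep x
    have hk : ∀ l, aug K ρ ((v : Lvl (Fin 1 → Fin m → U K)) l last3 0) = 0 := fun l => by
      rw [← dAug_mk, hv, show dAug K ρ (x : Q0 K m) = 0 from x.2]; rfl
    let c : Fin 5 → Fin 2 → Fin m → K := fun i => (2 * (m₀ : K))⁻¹ • Φ v i
    let η : Fin 5 → Fin 2 → Fin 1 → Fin m → U K := fun i e _ j => algebraMap K (U K) (c i e j)
    have hη : ∀ i e, aug K ρ (η i e 0) = c i e := fun i e => aug_algebraMap K ρ _
    have hz : ∀ i, Φ v i = FM K ρ (c i) := by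
      intro i
      have h0 : GM K m₀ ρ (Φ v i) = 0 := by
        rw [← hth x i v hv, show th x i = 0 from congrFun h i, map_zero]
      simp only [GM, LinearMap.sub_apply, LinearMap.smul_apply, Module.End.one_apply,
        sub_eq_zero] at h0
      simp only [c, map_smul, ← h0, smul_smul, inv_mul_cancel₀ hne, one_smul]
    choose w hw hcw using fun (i : Fin 5) =>
      exact_aug K ρ _ _ (fun j => mem_FV K |>.mp (v.2.1 i) 0 j) (hk i)
    have hmem : ∀ (i : Fin 5) e, (v : Lvl (Fin 1 → Fin m → U K)) i e.castSucc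
        - ∑ e', Fm K e e' • η i e' ∈ FV K 1 m ((i : ℤ) + 1) := fun i e =>
      sub_mem (FV_mono K (by simp) (v.2.2 i e)) (Submodule.sum_mem _ fun e' _ =>
        FV_smul K (FmZ_mem K e e') (const_mem K (c i e') (d := (i : ℤ)) (by omega)) (by omega))
    have hzero : ∀ (i : Fin 5) e, aug K ρ (((v : Lvl (Fin 1 → Fin m → U K)) i e.castSucc
        - ∑ e', Fm K e e' • η i e') 0) = 0 := by
      intro i e
      rw [Pi.sub_apply, aug_sub]
      have := congrFun (aug_Fm K (ρ := ρ) (η i)) e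
      rw [this, show (fun e => aug K ρ (η i e 0)) = c i from funext (hη i), ← hz i, sub_self]
    choose w' hw' hcw' using fun (i : Fin 5) e =>
      exact_aug K ρ _ _ (fun j => mem_FV K |>.mp (hmem i e) 0 j) (hzero i e)
    let W : Lvl (Fin 4 → Fin m → U K) := fun i e => Fin.lastCases (w i) (fun e => w' i e) e
    have hW : W ∈ qhat K 1 4 m :=
      ⟨fun i => mem_FV K |>.mpr fun k j => by simpa [W] using hw i k j,
        fun i e => mem_FV K |>.mpr fun k j => by simpa [W] using hw' i e k j⟩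
    refine ⟨mkQ K 1 4 m ⟨W, hW⟩, ?_⟩
    rw [← hv]
    refine (Submodule.Quotient.eq _).mpr ⟨fun i => ?_, fun i => ⟨fun e => -(η i e), fun e =>
      Submodule.neg_mem _ (FV_mono K (by simp) (const_mem K (c i e) (d := (i : ℤ)) (by omega))),
      fun e => ?_⟩⟩
    · show f0 K ρ (W i last3) - (v : Lvl (Fin 1 → Fin m → U K)) i last3 = 0
      rw [sub_eq_zero]
      funext o
      rw [Subsingleton.elim o 0]
      simpa [W, f0] using hcw i
    · show f0 K ρ (W i e.castSucc) - (v : Lvl (Fin 1 → Fin m → U K)) i e.castSucc = _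
      funext o
      rw [Subsingleton.elim o 0]
      simp [W, f0, hcw' i e, Finset.sum_apply, smul_neg, Finset.sum_neg_distrib]
  · obtain ⟨q, hq⟩ := h
    obtain ⟨w, rfl⟩ := Submodule.Quotient.mk_surjective _ q
    funext i
    show th x i = (0 : Fin n → K)
    apply hl.inj
    rw [hth x i _ hq, map_zero]
    have hz : Φ ⟨_, (show lvlMap K (f0 K ρ) (w : Lvl (Fin 4 → Fin m → U K)) ∈ qhat K 0 1 m from
        ⟨fun i => f0_mem K ρ _ _ (w.2.1 i), fun i e => f0_mem K ρ _ _ (w.2.2 i e)⟩)⟩ i = 0 := by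
      funext e
      exact aug_f0 K ρ _
    exact (congrArg (GM K m₀ ρ) hz).trans (map_zero _)

include hl in
theorem exists_theta1 : ∃ θ : LinearMap.ker (d0 K ρ) →ₗ[Alg K] Good K ρ',
    Function.Surjective θ ∧ ∀ x, θ x = 0 ↔ (x : Q1 K m) ∈ LinearMap.range (d1 K ρ) := by
  classical
  let IsEta : qhat K 1 4 m → (Fin 5 → Fin 2 → Fin 1 → Fin m → U K) → Prop := fun v η =>
    (∀ (i : Fin 5) e, η i e ∈ FV K 1 m (i : ℤ)) ∧ ∀ (i : Fin 5) e,
      f0 K ρ ((v : Lvl (Fin 4 → Fin m → U K)) i e.castSucc) = ∑ e', Fm K e e' • η i e'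
  have huniq : ∀ v w η η', mkQ K 1 4 m v = mkQ K 1 4 m w → IsEta v η → IsEta w η' →
      ∀ i e, aug K ρ (η i e 0) = aug K ρ (η' i e 0) := by
    intro v w η η' h hη hη' i e
    obtain ⟨-, h2⟩ := (Submodule.Quotient.eq _).mp h
    obtain ⟨y, hy, ey⟩ := h2 i
    have hd : (fun e => η i e - η' i e - f0 K ρ (y e)) = 0 := by
      refine FmG_inj (d := (i : ℤ)) _ (fun e => sub_mem (sub_mem (hη.1 i e) (hη'.1 i e))
        (FV_mono K (by simp) (f0_mem K ρ _ _ (hy e)))) (fun e => ?_)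
      simp only [smul_sub, Finset.sum_sub_distrib, ← hη.2, ← hη'.2, ← map_smul, ← map_sum,
        ← ey e, ← map_sub]
      simp
    have := congrFun (congrFun hd e) 0
    simp only [Pi.sub_apply, Pi.zero_apply, sub_eq_iff_eq_add, zero_add] at this
    rw [this, aug_add, aug_f0, zero_add]
  have hex : ∀ x : LinearMap.ker (d0 K ρ), ∃ v η, mkQ K 1 4 m v = (x : Q1 K m) ∧ IsEta v η ∧
      ∀ i, f0 K ρ ((v : Lvl (Fin 4 → Fin m → U K)) i last3) = 0 := by
    intro x
    obtain ⟨v, hv⟩ := Submodule.Quotient.mk_surjective _ (x : Q1 K m)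
    have hk : d0 K ρ (mkQ K 1 4 m v) = 0 := by
      show d0 K ρ (Submodule.Quotient.mk v) = 0
      rw [hv]; exact x.2
    obtain ⟨h1, h2⟩ := qmap_eq_zero.mp hk
    choose η hη e using h2
    exact ⟨v, η, hv, ⟨fun i e => FV_mono K (by simp) (hη i e), e⟩, h1⟩
  choose rv rη hrv hrη hrl using hex
  have hker : ∀ (x : LinearMap.ker (d0 K ρ)) (i : Fin 5),
      FM K ρ (fun e => aug K ρ (rη x i e 0)) = 0 := by
    intro x i
    rw [← aug_Fm]
    funext e
    rw [← (hrη x).2 i e]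
    exact aug_f0 K ρ _
  choose th hth using fun x i => exists_pre K hl (hker x i)
  have hchar : ∀ (x : LinearMap.ker (d0 K ρ)) (v : qhat K 1 4 m) η, mkQ K 1 4 m v = (x : Q1 K m) → IsEta v η →
      ∀ i, ι' (th x i) = fun e => aug K ρ (η i e 0) := by
    intro x v η hv hη i
    rw [hth]
    funext e
    exact huniq _ _ _ _ ((hrv x).trans hv.symm) (hrη x) hη i e
  let θ : LinearMap.ker (d0 K ρ) →ₗ[Alg K] Good K ρ' :=
    { toFun := fun x i => th x i
      map_add' := fun x y => by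
        funext i
        show th (x + y) i = th x i + th y i
        apply hl.inj
        rw [map_add, hchar (x + y) (rv x + rv y) (fun i e => rη x i e + rη y i e)
          (by rw [mkQ, Submodule.Quotient.mk_add, ← mkQ, ← mkQ, hrv, hrv]; rfl)
          ⟨fun i e => add_mem ((hrη x).1 i e) ((hrη y).1 i e), fun i e => by
            show f0 K ρ (_ + _) = _
            rw [map_add, (hrη x).2, (hrη y).2]
            simp [smul_add, Finset.sum_add_distrib]⟩ i, hth, hth]
        funext e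
        exact aug_add K ρ _ _
      map_smul' := fun r x => by
        obtain ⟨s, rfl⟩ := Ideal.Quotient.mk_surjective r
        funext i
        show th _ i = (Ideal.Quotient.mk (J K) s • (show Good K ρ' from fun i => th x i)) i
        rw [Good_mk_smul, good_smul]
        apply hl.inj
        rw [map_sum, hchar _ (s • rv x)
          (fun i e => ∑ l, ∑ d, Delta K (bet K s i l) e d • rη x l d)
          (by rw [Submodule.coe_smul, Q_mk_smul, ← hrv]; rfl)
          ⟨fun i e => Submodule.sum_mem _ fun l _ => Submodule.sum_mem _ fun d _ =>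
              FV_smul K (DeltaZ_mem K ((ins K s).diag i l) e d) ((hrη x).1 l d) (by omega),
            fun i e => by
              rw [Submodule.coe_smul, lvl_smul_cast]
              simp only [map_sum, map_add, map_smul, hrl, smul_zero, add_zero, (hrη x).2,
                Finset.smul_sum, smul_smul]
              symm
              rw [Finset.sum_comm]
              refine Finset.sum_congr rfl fun l _ => ?_
              rw [Finset.sum_comm]
              conv_rhs => rw [Finset.sum_comm]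
              refine Finset.sum_congr rfl fun d _ => ?_
              rw [← Finset.sum_smul, ← Finset.sum_smul]
              congr 1
              exact congrFun (congrFun (Fm_Delta K (bet K s i l)) e) d⟩ i]
        simp only [hl.equivariant, hth]
        funext e
        rw [Finset.sum_apply, Finset.sum_apply]
        rw [← Fintype.sum_prod_type' (f := fun l d => (Delta K (bet K s i l) e d • rη x l d) 0)
          |>.trans (Finset.sum_congr rfl fun l _ => (Finset.sum_apply _ _ _).symm)]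
        simp only [Pi.smul_apply]
        rw [aug_sum_smul, Fintype.sum_prod_type]
        simp [dM_apply] }
  refine ⟨θ, fun y => ?_, fun x => ⟨fun h => ?_, fun h => ?_⟩⟩
  · let η : Fin 5 → Fin 2 → Fin 1 → Fin m → U K := fun i e _ j =>
      algebraMap K (U K) (ι' (y i) e j)
    have hη : ∀ (i : Fin 5) e, η i e ∈ FV K 1 m (i : ℤ) := fun i e => const_mem K _ (by omega)
    have hmem : ∀ (i : Fin 5) e, ∑ e', Fm K e e' • η i e' ∈ FV K 1 m ((i : ℤ) + 1) := fun i e =>
      Submodule.sum_mem _ fun e' _ => FV_smul K (FmZ_mem K e e') (hη i e') (by omega)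
    have hzero : ∀ (i : Fin 5) e, aug K ρ ((∑ e', Fm K e e' • η i e') 0) = 0 := by
      intro i e
      have h1 := congrFun (aug_Fm K (ρ := ρ) (η i)) e
      rw [h1, show (fun e => aug K ρ (η i e 0)) = ι' (y i) from
        funext fun e => aug_algebraMap K ρ _]
      have : ι' (y i) ∈ LinearMap.range ι' := ⟨_, rfl⟩
      rw [hl.range_eq, LinearMap.mem_ker] at this
      rw [this]; rfl
    choose w hw hcw using fun (i : Fin 5) e =>
      exact_aug K ρ _ _ (fun j => mem_FV K |>.mp (hmem i e) 0 j) (hzero i e)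
    let W : Lvl (Fin 4 → Fin m → U K) := fun i e => Fin.lastCases 0 (fun e => w i e) e
    have hW : W ∈ qhat K 1 4 m :=
      ⟨fun i => by simp [W],
        fun i e => mem_FV K |>.mpr fun k j => by simpa [W] using hw i e k j⟩
    have he : ∀ i e, f0 K ρ (W i e.castSucc) = ∑ e', Fm K e e' • η i e' := by
      intro i e
      funext o
      rw [Subsingleton.elim o 0]
      simpa [W, f0] using hcw i e
    have hk : mkQ K 1 4 m ⟨W, hW⟩ ∈ LinearMap.ker (d0 K ρ) :=
      qmap_eq_zero.mpr ⟨fun i => by simp [W],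
        fun i => ⟨η i, fun e => FV_mono K (by simp) (hη i e), he i⟩⟩
    refine ⟨⟨_, hk⟩, ?_⟩
    funext i
    show th _ i = y i
    apply hl.inj
    rw [hchar _ ⟨W, hW⟩ η rfl ⟨hη, he⟩ i]
    funext e
    exact aug_algebraMap K ρ _
  · have h0 : ∀ i e, aug K ρ (rη x i e 0) = 0 := by
      intro i e
      have := congrFun (hth x i) e
      rw [show th x i = 0 from congrFun h i, map_zero] at this
      exact this.symm
    choose y hy hcy using fun (i : Fin 5) e =>
      exact_aug K ρ _ _ (fun j => mem_FV K |>.mp ((hrη x).1 i e) 0 j) (h0 i e)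
    have hyF : ∀ (i : Fin 5) e, y i e ∈ FV K 4 m ((i : ℤ) - ((1 : Fin 5) : ℕ)) := fun i e =>
      mem_FV K |>.mpr fun k j => FilZ_mono K (by simp) (hy i e k j)
    have hfy : ∀ i e, f0 K ρ (y i e) = rη x i e := by
      intro i e
      funext o
      rw [Subsingleton.elim o 0]
      exact hcy i e
    choose w hw hfw using fun (i : Fin 5) => exact_f0 K ρ _ _ ((rv x).2.1 i) (hrl x i)
    have hsub : ∀ i e, f0 K ρ ((rv x : Lvl (Fin 4 → Fin m → U K)) i e.castSucc
        - ∑ e', Fm K e e' • y i e') = 0 := by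
      intro i e
      rw [map_sub, (hrη x).2, map_sum]
      simp [map_smul, hfy]
    have hmem : ∀ (i : Fin 5) e, (rv x : Lvl (Fin 4 → Fin m → U K)) i e.castSucc
        - ∑ e', Fm K e e' • y i e' ∈ FV K 4 m ((i : ℤ) + 1 - ((1 : Fin 5) : ℕ)) := fun i e =>
      sub_mem ((rv x).2.2 i e) (Submodule.sum_mem _ fun e' _ =>
        FV_smul K (FmZ_mem K e e') (hyF i e') (by omega))
    choose w' hw' hfw' using fun (i : Fin 5) e => exact_f0 K ρ _ _ (hmem i e) (hsub i e)
    let W : Lvl (Fin 6 → Fin m → U K) := fun i e => Fin.lastCases (w i) (fun e => w' i e) e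
    have hW : W ∈ qhat K 2 6 m :=
      ⟨fun i => by simpa [W] using hw i, fun i e => by simpa [W] using hw' i e⟩
    refine ⟨mkQ K 2 6 m ⟨W, hW⟩, ?_⟩
    rw [← hrv x]
    refine (Submodule.Quotient.eq _).mpr ⟨fun i => ?_, fun i => ⟨fun e => -(y i e), fun e =>
      Submodule.neg_mem _ (hyF i e), fun e => ?_⟩⟩
    · show f1 K ρ (W i last3) - (rv x : Lvl (Fin 4 → Fin m → U K)) i last3 = 0
      simp [W, hfw]
    · show f1 K ρ (W i e.castSucc) - (rv x : Lvl (Fin 4 → Fin m → U K)) i e.castSucc = _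
      simp [W, hfw', smul_neg, Finset.sum_neg_distrib]
  · obtain ⟨q, hq⟩ := h
    obtain ⟨w, rfl⟩ := Submodule.Quotient.mk_surjective _ q
    funext i
    show th x i = (0 : Fin n → K)
    apply hl.inj
    rw [map_zero, hchar x ⟨lvlMap K (f1 K ρ) (w : Lvl (Fin 6 → Fin m → U K)),
      ⟨fun i => f1_mem K ρ _ _ (w.2.1 i), fun i e => f1_mem K ρ _ _ (w.2.2 i e)⟩⟩ 0 hq
      ⟨fun i e => zero_mem _, fun i e => by
        show f0 K ρ (f1 K ρ _) = _
        simp [f0_f1]⟩ i]
    funext e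
    exact aug_zero K ρ

end Vale.Agent.P176
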