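import Mathlib

/-!
The enveloping algebra of gl(2) over a field, its normal-ordered polynomial model and its
filtration by degree.  Generators: 0 = F, 1 = E, 2 = H, 3 = Z (central).
-/

namespace Vale.Agent.P176

open MvPolynomial

variable (K : Type) [Field K]

/-- Defining relations. -/
inductive Rel : FreeAlgebra K (Fin 4) → FreeAlgebra K (Fin 4) → Prop
  | hf : Rel (FreeAlgebra.ι K 2 * FreeAlgebra.ι K 0)
      (FreeAlgebra.ι K 0 * FreeAlgebra.ι K 2 - 2 * FreeAlgebra.ι K 0)
  | he : Rel (FreeAlgebra.ι K 2 * FreeAlgebra.ι K 1)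
      (FreeAlgebra.ι K 1 * FreeAlgebra.ι K 2 + 2 * FreeAlgebra.ι K 1)
  | ef : Rel (FreeAlgebra.ι K 1 * FreeAlgebra.ι K 0)
      (FreeAlgebra.ι K 0 * FreeAlgebra.ι K 1 + FreeAlgebra.ι K 2)
  | central (i : Fin 4) : Rel (FreeAlgebra.ι K 3 * FreeAlgebra.ι K i)
      (FreeAlgebra.ι K i * FreeAlgebra.ι K 3)

/-- The enveloping algebra of gl(2). -/
def U : Type := RingQuot (Rel K)

noncomputable instance : Ring (U K) := inferInstanceAs (Ring (RingQuot (Rel K)))

noncomputable instance : Algebra K (U K) := inferInstanceAs (Algebra K (RingQuot (Rel K)))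

/-- the quotient map -/
noncomputable def quot : FreeAlgebra K (Fin 4) →ₐ[K] U K := RingQuot.mkAlgHom K (Rel K)

theorem quot_rel {x y : FreeAlgebra K (Fin 4)} (h : Rel K x y) : quot K x = quot K y :=
  RingQuot.mkAlgHom_rel K h

theorem quot_surjective : Function.Surjective (quot K) :=
  RingQuot.mkAlgHom_surjective K (Rel K)

/-- The generators. -/
noncomputable def g (i : Fin 4) : U K := quot K (FreeAlgebra.ι K i)

theorem gHF : g K 2 * g K 0 = g K 0 * g K 2 - 2 * g K 0 := by
  simpa [g, map_ofNat] using quot_rel K (Rel.hf (K := K))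

theorem gHE : g K 2 * g K 1 = g K 1 * g K 2 + 2 * g K 1 := by
  simpa [g, map_ofNat] using quot_rel K (Rel.he (K := K))

theorem gEF : g K 1 * g K 0 = g K 0 * g K 1 + g K 2 := by
  simpa [g, map_ofNat] using quot_rel K (Rel.ef (K := K))

theorem gZ (i : Fin 4) : g K 3 * g K i = g K i * g K 3 := by
  simpa [g] using quot_rel K (Rel.central (K := K) i)

/-- Algebra maps out of `U` from images of the generators. -/
noncomputable def lift {R : Type} [Ring R] [Algebra K R] (f : Fin 4 → R)
    (h1 : f 2 * f 0 = f 0 * f 2 - 2 * f 0) (h2 : f 2 * f 1 = f 1 * f 2 + 2 * f 1)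
    (h3 : f 1 * f 0 = f 0 * f 1 + f 2) (h4 : ∀ i, f 3 * f i = f i * f 3) : U K →ₐ[K] R :=
  RingQuot.liftAlgHom K ⟨FreeAlgebra.lift K f, by
    intro x y h
    cases h with
    | hf => simpa [map_ofNat] using h1
    | he => simpa [map_ofNat] using h2
    | ef => simpa [map_ofNat] using h3
    | central i => simpa using h4 i⟩

theorem lift_quot {R : Type} [Ring R] [Algebra K R] (f : Fin 4 → R) (h1) (h2) (h3) (h4)
    (w : FreeAlgebra K (Fin 4)) :
    lift K f h1 h2 h3 h4 (quot K w) = FreeAlgebra.lift K f w :=
  RingQuot.liftAlgHom_mkAlgHom_apply K _ _ w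

theorem lift_g {R : Type} [Ring R] [Algebra K R] (f : Fin 4 → R) (h1) (h2) (h3) (h4)
    (i : Fin 4) : lift K f h1 h2 h3 h4 (g K i) = f i := by
  simp [g, lift_quot]

theorem U_induction {motive : U K → Prop} (hc : ∀ c : K, motive (algebraMap K (U K) c))
    (hg : ∀ i, motive (g K i)) (hm : ∀ a b, motive a → motive b → motive (a * b))
    (ha : ∀ a b, motive a → motive b → motive (a + b)) (u : U K) : motive u := by
  obtain ⟨w, rfl⟩ := quot_surjective K u
  induction w using FreeAlgebra.induction with
  | grade0 r => simpa using hc r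
  | grade1 x => exact hg x
  | mul a b h h' => simpa using hm _ _ h h'
  | add a b h h' => simpa using ha _ _ h h'

abbrev P := MvPolynomial (Fin 4) K

/-- multiplication by a variable -/
noncomputable def mX (i : Fin 4) : Module.End K (P K) := LinearMap.mulLeft K (X i)

noncomputable def dX (i : Fin 4) : Module.End K (P K) := (pderiv i).toLinearMap

/-- normal ordered left multiplication by the generators -/
noncomputable def L : Fin 4 → Module.End K (P K)
  | 0 => mX K 0
  | 1 => mX K 1 + mX K 2 * dX K 0 + 2 • (mX K 1 * dX K 1 * dX K 0) - mX K 0 * dX K 0 * dX K 0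
  | 2 => mX K 2 - 2 • (mX K 0 * dX K 0) + 2 • (mX K 1 * dX K 1)
  | 3 => mX K 3

theorem pderiv_comm' (i j : Fin 4) (p : P K) :
    pderiv i (pderiv j p) = pderiv j (pderiv i p) := by
  induction p using MvPolynomial.induction_on with
  | C a => simp
  | add p q hp hq => simp [hp, hq]
  | mul_X p k hp =>
    simp only [pderiv_mul, map_add, pderiv_X, hp]
    simp only [Pi.single_apply, apply_ite, map_zero, Derivation.map_one_eq_zero, ite_self,
      mul_zero, zero_mul, mul_one]
    split_ifs <;> ring

noncomputable def Lhom : U K →ₐ[K] Module.End K (P K) :=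
  lift K (L K)
    (by
      apply LinearMap.ext; intro p
      simp [L, mX, dX, two_mul, pderiv_mul]
      ring)
    (by
      apply LinearMap.ext; intro p
      simp [L, mX, dX, two_mul, pderiv_mul, pderiv_comm' K 0 1, pderiv_comm' K 0 2]
      ring)
    (by
      apply LinearMap.ext; intro p
      simp [L, mX, dX, two_mul, pderiv_mul, pderiv_comm' K 0 1]
      ring)
    (by
      intro i; apply LinearMap.ext; intro p
      fin_cases i <;> simp [L, mX, dX, two_mul, pderiv_mul] <;> ring)

theorem Lhom_g (i : Fin 4) : Lhom K (g K i) = L K i := lift_g ..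

/-- value on the vacuum -/
noncomputable def eps : U K →ₗ[K] P K :=
  (LinearMap.applyₗ (1 : P K)).comp (Lhom K).toLinearMap

theorem eps_apply (u : U K) : eps K u = Lhom K u 1 := rfl

theorem eps_g_mul (i : Fin 4) (u : U K) : eps K (g K i * u) = L K i (eps K u) := by
  simp [eps_apply, Lhom_g]

theorem eps_one : eps K 1 = 1 := by simp [eps_apply]

noncomputable def mon (a c b d : ℕ) : P K := X 0 ^ a * X 1 ^ c * X 2 ^ b * X 3 ^ d

noncomputable def word (a c b d : ℕ) : U K := g K 0 ^ a * g K 1 ^ c * g K 2 ^ b * g K 3 ^ d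

theorem monomial_eq_mon (s : Fin 4 →₀ ℕ) (r : K) :
    monomial s r = r • mon K (s 0) (s 1) (s 2) (s 3) := by
  rw [monomial_eq, smul_eq_C_mul]
  congr 1
  rw [Finsupp.prod_fintype _ _ (by intro i; simp), Fin.prod_univ_four]
  rfl

/-- inverse of `eps` -/
noncomputable def sig : P K →ₗ[K] U K :=
  (basisMonomials (Fin 4) K).constr K fun s => word K (s 0) (s 1) (s 2) (s 3)

theorem sig_mon (a c b d : ℕ) : sig K (mon K a c b d) = word K a c b d := by
  set s : Fin 4 →₀ ℕ := Finsupp.equivFunOnFinite.symm ![a, c, b, d] with hs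
  have h : mon K a c b d = monomial s 1 := by
    rw [monomial_eq_mon]; simp [hs]
  rw [h, sig, show monomial s (1 : K) = basisMonomials (Fin 4) K s by simp,
    Module.Basis.constr_basis]
  simp [hs]

theorem H_pow_F (a : ℕ) :
    g K 2 * g K 0 ^ a = g K 0 ^ a * g K 2 - (2 * a : ℕ) • g K 0 ^ a := by
  induction a with
  | zero => simp
  | succ a ih =>
    rw [pow_succ, ← mul_assoc, ih, sub_mul, mul_assoc, gHF]
    simp only [mul_sub, smul_mul_assoc, ← pow_succ, ← mul_assoc, two_mul, add_mul, mul_add]
    module

theorem H_pow_E (c : ℕ) :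
    g K 2 * g K 1 ^ c = g K 1 ^ c * g K 2 + (2 * c : ℕ) • g K 1 ^ c := by
  induction c with
  | zero => simp
  | succ c ih =>
    rw [pow_succ, ← mul_assoc, ih, add_mul, mul_assoc, gHE]
    simp only [mul_add, smul_mul_assoc, ← pow_succ, ← mul_assoc, two_mul, add_mul]
    module

theorem E_pow_F (a : ℕ) :
    g K 1 * g K 0 ^ (a + 1) = g K 0 ^ (a + 1) * g K 1 + (a + 1) • (g K 0 ^ a * g K 2)
      - (a * (a + 1)) • g K 0 ^ a := by
  induction a with
  | zero => simp [gEF]
  | succ a ih =>
    rw [pow_succ _ (a + 1), ← mul_assoc, ih]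
    simp only [add_mul, sub_mul, smul_mul_assoc, mul_assoc, gEF, gHF, mul_add, mul_sub, two_mul]
    simp only [← mul_assoc, ← pow_succ]
    module

theorem H_word (a c b d : ℕ) :
    g K 2 * word K a c b d = word K a c (b + 1) d - (2 * a) • word K a c b d
      + (2 * c) • word K a c b d := by
  have h : g K 2 * word K a c b d
      = (g K 2 * g K 0 ^ a) * g K 1 ^ c * g K 2 ^ b * g K 3 ^ d := by
    simp [word, mul_assoc]
  rw [h, H_pow_F, sub_mul, mul_assoc (g K 0 ^ a), H_pow_E]
  simp only [word, pow_succ' (g K 2), mul_add, add_mul, sub_mul, smul_mul_assoc, mul_smul_comm,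
    mul_assoc]
  module

theorem E_word (a c b d : ℕ) :
    g K 1 * word K (a + 1) c b d = word K (a + 1) (c + 1) b d
      + (a + 1) • word K a c (b + 1) d + ((a + 1) * (2 * c)) • word K a c b d
      - (a * (a + 1)) • word K a c b d := by
  have h : g K 1 * word K (a + 1) c b d
      = (g K 1 * g K 0 ^ (a + 1)) * g K 1 ^ c * g K 2 ^ b * g K 3 ^ d := by
    simp [word, mul_assoc]
  rw [h, E_pow_F, sub_mul, add_mul, smul_mul_assoc, mul_assoc (g K 0 ^ a), H_pow_E]
  simp only [word, pow_succ' (g K 2), pow_succ' (g K 1), mul_add, add_mul, sub_mul, smul_mul_assoc,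
    mul_smul_comm, mul_assoc, smul_add, smul_smul]
  module

theorem mX_mon_mul (i : Fin 4) (p q : P K) : mX K i p * q = mX K i (p * q) := by
  simp [mX, mul_assoc]

theorem L2_mon (a c b d : ℕ) :
    L K 2 (mon K a c b d) = mon K a c (b + 1) d - (2 * a) • mon K a c b d
      + (2 * c) • mon K a c b d := by
  rcases a with _ | a <;> rcases c with _ | c <;>
    simp [L, mX, dX, mon, pderiv_mul, pderiv_pow] <;> ring

theorem L1_mon_zero (c b d : ℕ) : L K 1 (mon K 0 c b d) = mon K 0 (c + 1) b d := by
  simp [L, mX, dX, mon, pderiv_mul, pderiv_pow]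
  ring

theorem L1_mon (a c b d : ℕ) :
    L K 1 (mon K (a + 1) c b d) = mon K (a + 1) (c + 1) b d
      + (a + 1) • mon K a c (b + 1) d + ((a + 1) * (2 * c)) • mon K a c b d
      - (a * (a + 1)) • mon K a c b d := by
  rcases a with _ | a <;> rcases c with _ | c <;>
    simp [L, mX, dX, mon, pderiv_mul, pderiv_pow] <;> ring

theorem gZ_pow (i : Fin 4) (n : ℕ) : g K 3 * g K i ^ n = g K i ^ n * g K 3 :=
  (Commute.pow_right (gZ K i) n)

theorem sig_L (i : Fin 4) (p : P K) : sig K (L K i p) = g K i * sig K p := by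
  have key : ∀ a c b d, sig K (L K i (mon K a c b d)) = g K i * word K a c b d := by
    intro a c b d
    fin_cases i
    · have h : L K 0 (mon K a c b d) = mon K (a + 1) c b d := by
        simp [L, mX, mon]; ring
      simp [h, sig_mon, word, pow_succ', mul_assoc]
    · rcases a with _ | a
      · simp [L1_mon_zero, sig_mon, word, pow_succ', mul_assoc]
      · simp only [Fin.reduceFinMk, L1_mon, map_sub, map_add, map_nsmul, sig_mon, E_word]
    · simp only [Fin.reduceFinMk, L2_mon, map_sub, map_add, map_nsmul, sig_mon, H_word]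
    · have h : L K 3 (mon K a c b d) = mon K a c b (d + 1) := by
        simp [L, mX, mon]; ring
      have h0 := gZ_pow K 0 a
      have h1 := gZ_pow K 1 c
      have h2 := gZ_pow K 2 b
      simp only [Fin.reduceFinMk, h, sig_mon, word, pow_succ' (g K 3), ← mul_assoc, h0]
      simp only [mul_assoc]
      rw [← mul_assoc (g K 3) (g K 1 ^ c), h1, mul_assoc,
        ← mul_assoc (g K 3) (g K 2 ^ b), h2, mul_assoc]
  induction p using MvPolynomial.induction_on' with
  | monomial s r => simp [monomial_eq_mon, key, sig_mon]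
  | add p q hp hq => simp [hp, hq, mul_add]

theorem sig_one : sig K 1 = 1 := by
  have h : (1 : P K) = mon K 0 0 0 0 := by simp [mon]
  rw [h, sig_mon]; simp [word]

theorem sig_eps (u : U K) : sig K (eps K u) = u := by
  have h : ∀ v : U K, ∀ p, sig K (Lhom K v p) = v * sig K p := by
    intro v
    induction v using U_induction K with
    | hc c =>
      intro p
      rw [AlgHom.commutes, Module.algebraMap_end_apply, map_smul, Algebra.smul_def]
    | hg i => intro p; rw [Lhom_g, sig_L]
    | hm a b ha hb => intro p; simp [ha, hb, mul_assoc]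
    | ha a b ha hb => intro p; simp [ha, hb, add_mul]
  simpa [eps_apply, sig_one] using h u 1

/-- degree one part -/
noncomputable def S1 : Submodule K (U K) := Submodule.span K (insert 1 (Set.range (g K)))

/-- the degree filtration -/
noncomputable def Fil (d : ℕ) : Submodule K (U K) := S1 K ^ d

theorem one_mem_S1 : (1 : U K) ∈ S1 K := Submodule.subset_span (Set.mem_insert ..)

theorem g_mem_S1 (i : Fin 4) : g K i ∈ S1 K :=
  Submodule.subset_span (Set.mem_insert_of_mem _ ⟨i, rfl⟩)

theorem Fil_mono {a b : ℕ} (h : a ≤ b) : Fil K a ≤ Fil K b := by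
  obtain ⟨c, rfl⟩ := Nat.exists_eq_add_of_le h
  intro u hu
  have h1 : (1 : U K) ∈ S1 K ^ c := by
    simpa using Submodule.pow_mem_pow (S1 K) (one_mem_S1 K) c
  have := Submodule.mul_mem_mul hu h1
  simpa [Fil, pow_add] using this

theorem Fil_mul {a b : ℕ} {u v : U K} (hu : u ∈ Fil K a) (hv : v ∈ Fil K b) :
    u * v ∈ Fil K (a + b) := by
  simpa [Fil, pow_add] using Submodule.mul_mem_mul hu hv

theorem g_mem_Fil (i : Fin 4) : g K i ∈ Fil K 1 := by simpa [Fil] using g_mem_S1 K i

theorem one_mem_Fil (d : ℕ) : (1 : U K) ∈ Fil K d := by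
  simpa [Fil] using Submodule.pow_mem_pow (S1 K) (one_mem_S1 K) d

theorem algebraMap_mem_Fil (c : K) (d : ℕ) : algebraMap K (U K) c ∈ Fil K d := by
  rw [Algebra.algebraMap_eq_smul_one]; exact Submodule.smul_mem _ _ (one_mem_Fil K d)

noncomputable abbrev Pdeg (d : ℕ) : Submodule K (P K) := restrictTotalDegree (Fin 4) K d

theorem mon_mem_Pdeg {a c b d n : ℕ} (h : a + c + b + d ≤ n) : mon K a c b d ∈ Pdeg K n := by
  rw [mem_restrictTotalDegree]
  refine le_trans ?_ h
  refine (totalDegree_mul ..).trans (add_le_add ((totalDegree_mul ..).trans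
    (add_le_add ((totalDegree_mul ..).trans (add_le_add ?_ ?_)) ?_)) ?_) <;>
    exact (totalDegree_X_pow ..).le

theorem L_lead (i : Fin 4) {n : ℕ} {p : P K} (hp : p ∈ Pdeg K n) :
    L K i p - X i * p ∈ Pdeg K n := by
  have key : ∀ a c b d, a + c + b + d ≤ n →
      L K i (mon K a c b d) - X i * mon K a c b d ∈ Pdeg K n := by
    intro a c b d h
    fin_cases i
    · simp [L, mX]
    · rcases a with _ | a
      · have : mon K 0 (c + 1) b d - X 1 * mon K 0 c b d = 0 := by simp [mon]; ring
        simp [L1_mon_zero, this]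
      · have h1 : L K 1 (mon K (a + 1) c b d) - X 1 * mon K (a + 1) c b d =
            (a + 1) • mon K a c (b + 1) d + ((a + 1) * (2 * c)) • mon K a c b d
            - (a * (a + 1)) • mon K a c b d := by
          rw [L1_mon]; simp [mon]; ring
        simp only [Fin.reduceFinMk, h1]
        refine sub_mem (add_mem (nsmul_mem ?_ _) (nsmul_mem ?_ _)) (nsmul_mem ?_ _) <;>
          exact mon_mem_Pdeg K (by omega)
    · have h1 : L K 2 (mon K a c b d) - X 2 * mon K a c b d =
          (2 * c) • mon K a c b d - (2 * a) • mon K a c b d := by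
        rw [L2_mon]; simp [mon]; ring
      simp only [Fin.reduceFinMk, h1]
      exact sub_mem (nsmul_mem (mon_mem_Pdeg K h) _) (nsmul_mem (mon_mem_Pdeg K h) _)
    · simp [L, mX]
  rw [mem_restrictTotalDegree] at hp
  rw [p.as_sum, map_sum, Finset.mul_sum, ← Finset.sum_sub_distrib]
  refine Submodule.sum_mem _ fun s hs => ?_
  have hdeg := (le_totalDegree hs).trans hp
  have h4 : s 0 + s 1 + s 2 + s 3 ≤ n := by
    rw [Finsupp.sum_fintype _ _ (by simp), Fin.sum_univ_four] at hdeg
    exact hdeg
  rw [monomial_eq_mon, map_smul, mul_smul_comm, ← smul_sub]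
  exact Submodule.smul_mem _ _ (key _ _ _ _ h4)

theorem L_mem (i : Fin 4) {n : ℕ} {p : P K} (hp : p ∈ Pdeg K n) :
    L K i p ∈ Pdeg K (n + 1) := by
  have h1 : L K i p - X i * p ∈ Pdeg K (n + 1) := by
    have := L_lead K i hp
    rw [mem_restrictTotalDegree] at this ⊢; omega
  have h2 : X i * p ∈ Pdeg K (n + 1) := by
    rw [mem_restrictTotalDegree] at hp ⊢
    refine (totalDegree_mul ..).trans ?_
    rw [totalDegree_X]; omega
  simpa using add_mem h1 h2

theorem eps_mem {d : ℕ} {u : U K} (hu : u ∈ Fil K d) : eps K u ∈ Pdeg K d := by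
  induction hu using Submodule.pow_induction_on_left' with
  | algebraMap r =>
    rw [Algebra.algebraMap_eq_smul_one, map_smul, eps_one]
    exact Submodule.smul_mem _ _ (by simp [mem_restrictTotalDegree])
  | add x y i _ _ hx hy => simpa using add_mem hx hy
  | mem_mul m hm i x _ hx =>
    induction hm using Submodule.span_induction with
    | mem y hy =>
      rcases hy with rfl | ⟨j, rfl⟩
      · rw [mem_restrictTotalDegree] at hx ⊢; simpa using Nat.le_succ_of_le hx
      · rw [eps_g_mul]; exact L_mem K j hx
    | zero => simp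
    | add y z _ _ hy hz => simpa [add_mul] using add_mem hy hz
    | smul r y _ hy => simpa using Submodule.smul_mem _ r hy

theorem sig_mem {d : ℕ} {p : P K} (hp : p ∈ Pdeg K d) : sig K p ∈ Fil K d := by
  rw [mem_restrictTotalDegree] at hp
  rw [p.as_sum, map_sum]
  refine Submodule.sum_mem _ fun s hs => ?_
  have hdeg := (le_totalDegree hs).trans hp
  rw [Finsupp.sum_fintype _ _ (by simp), Fin.sum_univ_four] at hdeg
  rw [monomial_eq_mon, map_smul, sig_mon]
  refine Submodule.smul_mem _ _ (Fil_mono K hdeg ?_)
  have hp : ∀ i n, g K i ^ n ∈ Fil K n := fun i n =>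
    Submodule.pow_mem_pow (S1 K) (g_mem_S1 K i) n
  exact Fil_mul K (Fil_mul K (Fil_mul K (hp 0 _) (hp 1 _)) (hp 2 _)) (hp 3 _)

theorem Fil_finite (d : ℕ) : Module.Finite K (Fil K d) := by
  have h : (S1 K).FG := Submodule.fg_span (Set.Finite.insert _ (Set.finite_range _))
  exact Module.Finite.iff_fg.mpr (Submodule.FG.pow h d)

theorem comm_mem {d : ℕ} {u : U K} (hu : u ∈ Fil K d) (j : Fin 4) :
    u * g K j - g K j * u ∈ Fil K d := by
  induction hu using Submodule.pow_induction_on_left' with
  | algebraMap r => simp [Algebra.commutes]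
  | add x y i _ _ hx hy =>
    have h : (x + y) * g K j - g K j * (x + y)
        = (x * g K j - g K j * x) + (y * g K j - g K j * y) := by noncomm_ring
    rw [h]; exact add_mem hx hy
  | mem_mul m hm i x hx0 hx =>
    have h : m * x * g K j - g K j * (m * x)
        = m * (x * g K j - g K j * x) + (m * g K j - g K j * m) * x := by
      simp only [mul_sub, sub_mul, mul_assoc]; abel
    rw [h, Nat.succ_eq_add_one, Nat.add_comm i 1]
    clear h
    refine add_mem (Fil_mul K (by simpa [Fil] using hm) hx)
      (Fil_mul K ?_ (by simpa [Fil] using hx0))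
    induction hm using Submodule.span_induction with
    | mem y hy =>
      rcases hy with rfl | ⟨l, rfl⟩
      · simp
      · have hg := g_mem_Fil K
        have h2 : ∀ k, 2 * g K k ∈ Fil K 1 := fun k => by
          rw [two_mul]; exact add_mem (hg k) (hg k)
        fin_cases l <;> fin_cases j <;>
          simp [gHF, gHE, gEF, gZ] <;>
          first
            | exact hg _
            | exact h2 _
            | exact Submodule.neg_mem _ (hg _)
            | exact Submodule.neg_mem _ (h2 _)
    | zero => simp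
    | add y z _ _ hy hz =>
      have h : (y + z) * g K j - g K j * (y + z)
          = (y * g K j - g K j * y) + (z * g K j - g K j * z) := by noncomm_ring
      rw [h]; exact add_mem hy hz
    | smul r y _ hy => simpa [smul_sub] using Submodule.smul_mem _ r hy

/-- top symbol -/
noncomputable def top (d : ℕ) : U K →ₗ[K] P K := (homogeneousComponent d).comp (eps K)

theorem top_isHomogeneous (d : ℕ) (u : U K) : (top K d u).IsHomogeneous d :=
  homogeneousComponent_isHomogeneous ..

theorem top_sig {d : ℕ} {p : P K} (hp : p.IsHomogeneous d) : top K d (sig K p) = p := by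
  have h : eps K (sig K p) = p := by
    have key : ∀ a c b e, eps K (word K a c b e) = mon K a c b e := by
      intro a c b e
      induction a with
      | succ a ih =>
        rw [word, pow_succ', mul_assoc, mul_assoc, mul_assoc, eps_g_mul,
          ← mul_assoc, ← mul_assoc]
        rw [word] at ih
        rw [ih]; simp [L, mX, mon]; ring
      | zero =>
        induction c with
        | succ c ih =>
          simp only [word, pow_zero, one_mul] at ih ⊢
          rw [pow_succ', mul_assoc, mul_assoc, eps_g_mul, ← mul_assoc, ih, L1_mon_zero]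
        | zero =>
          induction b with
          | succ b ih =>
            simp only [word, pow_zero, one_mul] at ih ⊢
            rw [pow_succ', mul_assoc, eps_g_mul, ih, L2_mon]
            simp
          | zero =>
            induction e with
            | succ e ih =>
              simp only [word, pow_zero, one_mul] at ih ⊢
              rw [pow_succ', eps_g_mul, ih]; simp [L, mX, mon]; ring
            | zero => simp [word, mon, eps_one]
    rw [p.as_sum, map_sum, map_sum]
    simp [monomial_eq_mon, sig_mon, key]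
  simp [top, h, homogeneousComponent_of_mem hp]

theorem mem_Fil_pred {d : ℕ} {u : U K} (hu : u ∈ Fil K (d + 1)) (ht : top K (d + 1) u = 0) :
    u ∈ Fil K d := by
  rw [← sig_eps K u]
  apply sig_mem
  have h := eps_mem K hu
  rw [mem_restrictTotalDegree] at h ⊢
  by_contra hc
  have hd : (eps K u).totalDegree = d + 1 := by omega
  have hne : eps K u ≠ 0 := by
    intro h0; rw [h0] at hd; simp at hd
  obtain ⟨s, hs, hsd⟩ := (eps K u).support.exists_mem_eq_sup
    (support_nonempty.mpr hne) (fun s => s.sum fun _ e => e)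
  have hdeg : s.degree = d + 1 := by
    rw [← hd, totalDegree, hsd]; rfl
  have := congrArg (coeff s) ht
  simp [top, coeff_homogeneousComponent, hdeg] at this
  exact (mem_support_iff.mp hs) this

theorem eq_zero_of_top_zero {u : U K} (hu : u ∈ Fil K 0) (ht : top K 0 u = 0) : u = 0 := by
  rw [← sig_eps K u]
  have h := eps_mem K hu
  rw [mem_restrictTotalDegree, Nat.le_zero, totalDegree_eq_zero_iff_eq_C] at h
  simp [top, homogeneousComponent_zero] at ht
  rw [h, ht]; simp

theorem top_eq_zero_of_lt {d n : ℕ} {u : U K} (hu : u ∈ Fil K d) (hn : d < n) :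
    top K n u = 0 := by
  have h := eps_mem K hu
  rw [mem_restrictTotalDegree] at h
  exact homogeneousComponent_eq_zero _ _ (by omega)

theorem top_g_mul {d : ℕ} {u : U K} (hu : u ∈ Fil K d) (i : Fin 4) :
    top K (d + 1) (g K i * u) = X i * top K d u := by
  have h1 := L_lead K i (eps_mem K hu)
  rw [mem_restrictTotalDegree] at h1
  have h2 : top K (d + 1) (g K i * u) = homogeneousComponent (d + 1) (X i * eps K u) := by
    simp only [top, LinearMap.comp_apply, eps_g_mul]
    have := homogeneousComponent_eq_zero (d + 1) _ (Nat.lt_succ_of_le h1)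
    rwa [map_sub, sub_eq_zero] at this
  rw [h2, top, LinearMap.comp_apply]
  ext s
  rw [coeff_homogeneousComponent, coeff_X_mul', coeff_X_mul']
  by_cases hs : i ∈ s.support
  · have hdeg : (s - Finsupp.single i 1).degree + 1 = s.degree := by
      have hle : Finsupp.single i 1 ≤ s := by
        simp only [Finsupp.single_le_iff]
        exact Nat.one_le_iff_ne_zero.mpr (Finsupp.mem_support_iff.mp hs)
      conv_rhs => rw [← tsub_add_cancel_of_le hle]
      simp
    simp only [hs, if_true, coeff_homogeneousComponent]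
    by_cases hq : (s - Finsupp.single i 1).degree = d
    · rw [if_pos (by omega), if_pos hq]
    · rw [if_neg (by omega), if_neg hq]
  · simp [hs]

theorem top_mul_g {d : ℕ} {u : U K} (hu : u ∈ Fil K d) (i : Fin 4) :
    top K (d + 1) (u * g K i) = X i * top K d u := by
  have h := top_eq_zero_of_lt K (comm_mem K hu i) (Nat.lt_succ_self d)
  rw [map_sub, sub_eq_zero] at h
  rw [h, top_g_mul K hu]

end Vale.Agent.P176
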