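import Vale.Agent.P176.Complex

/-!
Projective dimensions of the level-wise constant modules: unbounded and finite.
-/

namespace Vale.Agent.P176

open MvPolynomial Matrix CategoryTheory

variable {K : Type} [Field K]

/-- projective dimension less than `n` -/
abbrev PdLT (K : Type) [Field K] (X : Type) [AddCommGroup X] [Module (Alg K) X] (n : ℕ) : Prop :=
  HasProjectiveDimensionLT (ModuleCat.of (Alg K) X) n

section Seq

variable {X Y Z : Type} [AddCommGroup X] [AddCommGroup Y] [AddCommGroup Z]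
  [Module (Alg K) X] [Module (Alg K) Y] [Module (Alg K) Z]

theorem seq_shortExact (f : X →ₗ[Alg K] Y) (g : Y →ₗ[Alg K] Z) (hf : Function.Injective f)
    (hg : Function.Surjective g) (he : LinearMap.ker g = LinearMap.range f) :
    ∃ S : ShortComplex (ModuleCat (Alg K)), S.ShortExact ∧ S.X₁ = ModuleCat.of (Alg K) X ∧
      S.X₂ = ModuleCat.of (Alg K) Y ∧ S.X₃ = ModuleCat.of (Alg K) Z := by
  have hgf : g.comp f = 0 := by
    ext x
    show g (f x) = 0
    rw [← LinearMap.mem_ker, he]
    exact ⟨x, rfl⟩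
  refine ⟨ShortComplex.mk (ModuleCat.ofHom f) (ModuleCat.ofHom g) ?_, ?_, rfl, rfl, rfl⟩
  · rw [← ModuleCat.ofHom_comp, hgf]; rfl
  · refine { exact := ?_, mono_f := ?_, epi_g := ?_ }
    · rw [ShortComplex.ShortExact.moduleCat_exact_iff_function_exact]
      exact LinearMap.exact_iff.mpr he
    · exact (ModuleCat.mono_iff_injective _).mpr hf
    · exact (ModuleCat.epi_iff_surjective _).mpr hg

variable {f : X →ₗ[Alg K] Y} {g : Y →ₗ[Alg K] Z} (hf : Function.Injective f)
  (hg : Function.Surjective g) (he : LinearMap.ker g = LinearMap.range f)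

include hf hg he

theorem seq_mid {n : ℕ} (h1 : PdLT K X n) (h3 : PdLT K Z n) : PdLT K Y n := by
  obtain ⟨S, hS, e1, e2, e3⟩ := seq_shortExact f g hf hg he
  unfold PdLT at *
  rw [← e1] at h1; rw [← e3] at h3; rw [← e2]
  exact hS.hasProjectiveDimensionLT_X₂ n h1 h3

theorem seq_right {n : ℕ} (h1 : PdLT K X n) (h2 : PdLT K Y (n + 1)) : PdLT K Z (n + 1) := by
  obtain ⟨S, hS, e1, e2, e3⟩ := seq_shortExact f g hf hg he
  unfold PdLT at *
  rw [← e1] at h1; rw [← e2] at h2; rw [← e3]
  exact hS.hasProjectiveDimensionLT_X₃ n h1 h2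

theorem seq_left {n : ℕ} (h2 : PdLT K Y n) (h3 : PdLT K Z (n + 1)) : PdLT K X n := by
  obtain ⟨S, hS, e1, e2, e3⟩ := seq_shortExact f g hf hg he
  unfold PdLT at *
  rw [← e2] at h2; rw [← e3] at h3; rw [← e1]
  exact hS.hasProjectiveDimensionLT_X₁ n h2 h3

end Seq

theorem PdLT.mono {X : Type} [AddCommGroup X] [Module (Alg K) X] {a b : ℕ} (h : PdLT K X a)
    (hab : a ≤ b) : PdLT K X b :=
  hasProjectiveDimensionLT_of_ge _ a b hab

theorem pd_projective (X : Type) [AddCommGroup X] [Module (Alg K) X]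
    [Module.Projective (Alg K) X] {n : ℕ} (hn : 1 ≤ n) : PdLT K X n :=
  PdLT.mono (a := 1) inferInstance hn

theorem pd_subsingleton (X : Type) [AddCommGroup X] [Module (Alg K) X] [Subsingleton X] (n : ℕ) :
    PdLT K X n :=
  PdLT.mono (a := 0)
    (Limits.IsZero.hasProjectiveDimensionLT_zero (ModuleCat.isZero_of_subsingleton _)) n.zero_le

variable [CharZero K] {m m₀ n : ℕ} {ρ : U K →ₐ[K] Module.End K (Fin m → K)}
  {ρ' : U K →ₐ[K] Module.End K (Fin n → K)} {ι' : (Fin n → K) →ₗ[K] (Fin 2 → Fin m → K)}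

omit [CharZero K] in
theorem range_ker_exact {X Y Z : Type} [AddCommGroup X] [AddCommGroup Y] [AddCommGroup Z]
    [Module (Alg K) X] [Module (Alg K) Y] [Module (Alg K) Z] {f : X →ₗ[Alg K] Y}
    {g : Y →ₗ[Alg K] Z} (h : LinearMap.ker g = LinearMap.range f) :
    LinearMap.ker g.rangeRestrict = LinearMap.range (LinearMap.range f).subtype := by
  rw [LinearMap.ker_rangeRestrict, Submodule.range_subtype, h]

theorem seqA : Function.Injective (d3 K ρ) ∧
    LinearMap.ker (d2 K ρ).rangeRestrict = LinearMap.range (d3 K ρ) :=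
  ⟨LinearMap.ker_eq_bot.mp (ker_d3 K ρ), by rw [LinearMap.ker_rangeRestrict, ker_d2]⟩

theorem pd_range_d2 : PdLT K (LinearMap.range (d2 K ρ)) 2 :=
  seq_right (seqA (ρ := ρ)).1 (LinearMap.surjective_rangeRestrict _) seqA.2
    (pd_projective _ le_rfl) (pd_projective _ (by omega))

theorem pd_range_d1 : PdLT K (LinearMap.range (d1 K ρ)) 3 :=
  seq_right (Submodule.injective_subtype _) (LinearMap.surjective_rangeRestrict _)
    (range_ker_exact (ker_d1 K ρ)) pd_range_d2 (pd_projective _ (by omega))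

omit [CharZero K] in
theorem cd_comp (v : Q2 K m) : d0 K ρ (d1 K ρ v) = 0 := by
  obtain ⟨v, rfl⟩ := Submodule.Quotient.mk_surjective _ v
  refine (qmap_eq_zero (K := K)).mpr ⟨fun i => f0_f1 K ρ _, fun i => ⟨0, fun e => zero_mem _,
    fun e => ?_⟩⟩
  show f0 K ρ (f1 K ρ _) = _
  simp [f0_f1]

theorem range_d0_le : LinearMap.range (d0 K ρ) ≤ LinearMap.ker (dAug K ρ) := by
  rintro x ⟨y, rfl⟩
  obtain ⟨v, rfl⟩ := Submodule.Quotient.mk_surjective _ y
  rw [LinearMap.mem_ker]
  funext i
  show aug K ρ (f0 K ρ _ 0) = _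
  rw [aug_f0]
  rfl

omit [CharZero K] in
theorem range_d1_le : LinearMap.range (d1 K ρ) ≤ LinearMap.ker (d0 K ρ) := by
  rintro x ⟨y, rfl⟩
  exact cd_comp y

omit [CharZero K] in
theorem ker_inclusion {X N : Type} [AddCommGroup X] [AddCommGroup N] [Module (Alg K) X]
    [Module (Alg K) N] {P R : Submodule (Alg K) X} (hPR : P ≤ R) (θ : R →ₗ[Alg K] N)
    (hθ : ∀ x, θ x = 0 ↔ (x : X) ∈ P) :
    LinearMap.ker θ = LinearMap.range (Submodule.inclusion hPR) := by
  ext x
  rw [LinearMap.mem_ker, hθ, Submodule.range_inclusion]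
  rfl

/-- the four short exact sequences in one statement -/
theorem pd_transfer (hl : IsLower K ρ ρ' ι') (hp : HasParam K ρ m₀) (hm₀ : m₀ ≠ 0) :
    (∀ d, 3 ≤ d → PdLT K (Good K ρ') d → PdLT K (Good K ρ) (d + 2)) ∧
    (∀ d, 3 ≤ d → PdLT K (Good K ρ') (d + 2) → PdLT K (Good K ρ) (d + 3) →
      PdLT K (Good K ρ') (d + 1)) ∧
    (PdLT K (Good K ρ') 0 → PdLT K (Good K ρ) 4 → PdLT K (LinearMap.range (d2 K ρ)) 1) := by
  obtain ⟨θ0, hs0, hk0⟩ := exists_theta0 K hl hp hm₀
  obtain ⟨θ1, hs1, hk1⟩ := exists_theta1 K hl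
  have hC := ker_inclusion range_d1_le θ1 hk1
  have hCi := Submodule.inclusion_injective (range_d1_le (ρ := ρ))
  have hE := ker_inclusion range_d0_le θ0 hk0
  have hEi := Submodule.inclusion_injective (range_d0_le (ρ := ρ))
  have hD : LinearMap.ker (d0 K ρ).rangeRestrict
      = LinearMap.range (LinearMap.ker (d0 K ρ)).subtype := by
    rw [LinearMap.ker_rangeRestrict, Submodule.range_subtype]
  have hF : LinearMap.ker (dAug K ρ) = LinearMap.range (LinearMap.ker (dAug K ρ)).subtype := by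
    rw [Submodule.range_subtype]
  refine ⟨fun d hd hN => ?_, fun d hd hN hM => ?_, fun hN hM => ?_⟩
  · have hZ : PdLT K (LinearMap.ker (d0 K ρ)) d := seq_mid hCi hs1 hC (pd_range_d1.mono hd) hN
    have hR : PdLT K (LinearMap.range (d0 K ρ)) (d + 1) :=
      seq_right (Submodule.injective_subtype _) (LinearMap.surjective_rangeRestrict _) hD hZ
        (pd_projective _ (by omega))
    have hK : PdLT K (LinearMap.ker (dAug K ρ)) (d + 1) :=
      seq_mid hEi hs0 hE hR (hN.mono (by omega))
    exact seq_right (Submodule.injective_subtype _) (dAug_surjective K ρ) hF hK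
      (pd_projective _ (by omega))
  · have hK : PdLT K (LinearMap.ker (dAug K ρ)) (d + 2) :=
      seq_left (Submodule.injective_subtype _) (dAug_surjective K ρ) hF
        (pd_projective _ (by omega)) hM
    have hR : PdLT K (LinearMap.range (d0 K ρ)) (d + 2) :=
      seq_left hEi hs0 hE hK (hN.mono (by omega))
    have hZ : PdLT K (LinearMap.ker (d0 K ρ)) (d + 1) :=
      seq_left (Submodule.injective_subtype _) (LinearMap.surjective_rangeRestrict _) hD
        (pd_projective _ (by omega)) hR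
    exact seq_right hCi hs1 hC (pd_range_d1.mono hd) hZ
  · have hK : PdLT K (LinearMap.ker (dAug K ρ)) 3 :=
      seq_left (Submodule.injective_subtype _) (dAug_surjective K ρ) hF
        (pd_projective _ (by omega)) hM
    have hR : PdLT K (LinearMap.range (d0 K ρ)) 3 :=
      seq_left hEi hs0 hE hK (hN.mono (by omega))
    have hZ : PdLT K (LinearMap.ker (d0 K ρ)) 2 :=
      seq_left (Submodule.injective_subtype _) (LinearMap.surjective_rangeRestrict _) hD
        (pd_projective _ (by omega)) hR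
    have hB : PdLT K (LinearMap.range (d1 K ρ)) 2 :=
      seq_left hCi hs1 hC hZ (hN.mono (by omega))
    exact seq_left (Submodule.injective_subtype _) (LinearMap.surjective_rangeRestrict _)
      (range_ker_exact (ker_d1 K ρ)) (pd_projective _ (by omega)) hB

omit [CharZero K] in
/-- elements of the module at the top level with vanishing scalar part -/
theorem hom_Q3_Q4 (r : Q3 K m →ₗ[Alg K] Q4 K m) (x : Q3 K m) (v : qhat K 4 1 m)
    (hv : r x = mkQ K 4 1 m v) (i : Fin 5) :
    (v : Lvl (Fin 1 → Fin m → U K)) i last3 = 0 := by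
  classical
  have Zwd : ∀ v w : qhat K 4 1 m, mkQ K 4 1 m v = mkQ K 4 1 m w →
      ∀ i, (v : Lvl (Fin 1 → Fin m → U K)) i last3 = (w : Lvl (Fin 1 → Fin m → U K)) i last3 := by
    intro v w h i
    obtain ⟨h1, -⟩ := (Submodule.Quotient.eq _).mp h
    exact sub_eq_zero.mp (h1 i)
  let S : Submodule (Sg K) (Q4 K m) :=
    { carrier := {y | ∃ w, mkQ K 4 1 m w = y ∧
        ∀ i, (w : Lvl (Fin 1 → Fin m → U K)) i last3 = 0}
      add_mem' := by
        rintro a b ⟨v, rfl, hv⟩ ⟨w, rfl, hw⟩
        exact ⟨v + w, rfl, fun i => by simp [hv, hw]⟩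
      zero_mem' := ⟨0, rfl, fun i => rfl⟩
      smul_mem' := by
        rintro s a ⟨v, rfl, hv⟩
        exact ⟨s • v, rfl, fun i => by simp [lvl_smul_last, hv]⟩ }
  have hgen : ∀ k j, r (mkQ K 3 4 m (genQ K k j)) ∈ S := by
    intro k j
    let e := col K (genQ K (p := (3 : Fin 5)) (a := 4) (m := m) k j) k j
    have he : e • mkQ K 3 4 m (genQ K k j) = mkQ K 3 4 m (genQ K k j) := by
      rw [mkQ, ← Submodule.Quotient.mk_smul]
      congr 1
      apply Subtype.ext
      funext i c
      rw [Submodule.coe_smul]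
      cases c using Fin.lastCases with
      | last =>
        rw [lvl_smul_last, Finset.sum_eq_single (3 : Fin 5)]
        · by_cases hi : i = 3 <;> simp [e, bet_col, genQ, hi]
          exact fun h => absurd rfl h
        · intro l _ hl; simp [genQ, hl]
        · simp
      | cast c =>
        rw [lvl_smul_cast, Finset.sum_eq_single (3 : Fin 5)]
        · simp [e, xi_col, genQ, (Fin.castSucc_lt_last c).ne, (Fin.castSucc_lt_last _).ne]
        · intro l _ hl; simp [genQ, hl, (Fin.castSucc_lt_last _).ne]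
        · simp
    obtain ⟨w, hw⟩ := Submodule.Quotient.mk_surjective _ (r (mkQ K 3 4 m (genQ K k j)))
    refine ⟨e • w, ?_, fun i => ?_⟩
    · rw [← he, ← Q_mk_smul, map_smul, Q_mk_smul, ← hw]; rfl
    · rw [Submodule.coe_smul, lvl_smul_last]
      refine Finset.sum_eq_zero fun l _ => ?_
      by_cases hl : l = 3
      · subst hl
        have h : (w : Lvl (Fin 1 → Fin m → U K)) 3 last3 = 0 := by
          funext k' j'
          have := mem_FV K |>.mp (w.2.1 3) k' j'
          rwa [FilZ_neg K (by simp), Submodule.mem_bot] at this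
        rw [h, smul_zero]
      · simp [e, bet_col, hl]
  have hx : r x ∈ S := by
    rw [← assemble_section K x]
    show r (∑ k, ∑ j, sectionQ K x k j • mkQ K 3 4 m (genQ K k j)) ∈ S
    rw [map_sum]
    refine Submodule.sum_mem _ fun k _ => ?_
    rw [map_sum]
    refine Submodule.sum_mem _ fun j _ => ?_
    rw [map_smul]
    obtain ⟨s, hs⟩ := Ideal.Quotient.mk_surjective (sectionQ K x k j)
    rw [← hs, Q_mk_smul]
    exact S.smul_mem s (hgen k j)
  obtain ⟨w, hw, hw0⟩ := hx
  rw [Zwd v w (hv.symm.trans hw.symm) i, hw0 i]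

theorem not_pd_base (hl : IsLower K ρ ρ' ι') (hp : HasParam K ρ m₀) (hm₀ : m₀ ≠ 0) (hn : n = 0)
    (hm : 0 < m) : ¬ PdLT K (Good K ρ) 4 := by
  intro hM
  subst hn
  have : Subsingleton (Good K ρ') := inferInstanceAs (Subsingleton (Fin 5 → Fin 0 → K))
  have h := (pd_transfer hl hp hm₀).2.2 (pd_subsingleton _ _) hM
  have hproj : Module.Projective (Alg K) (LinearMap.range (d2 K ρ)) :=
    (IsProjective.iff_projective _).mpr
      (projective_iff_hasProjectiveDimensionLT_one.mpr h)
  obtain ⟨s, hs⟩ := Module.projective_lifting_property (d2 K ρ).rangeRestrict LinearMap.id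
    (LinearMap.surjective_rangeRestrict _)
  obtain ⟨hinj, hker⟩ := seqA (ρ := ρ)
  have hdiff : ∀ x, x - s ((d2 K ρ).rangeRestrict x) ∈ LinearMap.range (d3 K ρ) := by
    intro x
    rw [← hker, LinearMap.mem_ker, map_sub, ← LinearMap.comp_apply _ s, hs, LinearMap.id_apply,
      sub_self]
  let e := LinearEquiv.ofInjective (d3 K ρ) hinj
  let r : Q3 K m →ₗ[Alg K] Q4 K m := e.symm.toLinearMap.comp
    ((LinearMap.id - s.comp (d2 K ρ).rangeRestrict).codRestrict _ hdiff)
  have hr : ∀ y, r (d3 K ρ y) = y := by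
    intro y
    apply e.injective
    simp only [r, LinearMap.comp_apply, LinearEquiv.coe_coe, LinearEquiv.apply_symm_apply]
    apply Subtype.ext
    have : (d2 K ρ).rangeRestrict (d3 K ρ y) = 0 := by
      rw [← LinearMap.mem_ker, hker]; exact ⟨y, rfl⟩
    simp [e, this]
  let V : Lvl (Fin 1 → Fin m → U K) := fun i c =>
    if i = 4 ∧ c = last3 then (fun _ _ => 1) else 0
  have hV : V ∈ qhat K 4 1 m := by
    refine ⟨fun i => ?_, fun i c => ?_⟩
    · by_cases hi : i = 4
      · subst hi
        rw [mem_FV]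
        intro _ _
        simp only [V, and_self, if_true, sub_self]
        rw [show (0 : ℤ) = ((0 : ℕ) : ℤ) from rfl, FilZ_natCast]
        exact one_mem_Fil K 0
      · simp [V, hi]
    · simp [V, (Fin.castSucc_lt_last c).ne]
  have h0 := hom_Q3_Q4 r _ ⟨V, hV⟩ (hr (mkQ K 4 1 m ⟨V, hV⟩)) 4
  have h1 : (1 : U K) = 0 := by
    have := congrFun (congrFun h0 0) ⟨0, hm⟩
    simpa [V] using this
  have := congrArg (eps K) h1
  rw [eps_one, map_zero] at this
  exact one_ne_zero this

/-- For each value of the central parameter, the projective dimension is finite and grows. -/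
theorem pd_exact : ∀ (m₀ m : ℕ) (ρ : U K →ₐ[K] Module.End K (Fin m → K)),
    HasParam K ρ (m₀ + 1) → 0 < m →
    PdLT K (Good K ρ) (2 * m₀ + 5) ∧ ¬ PdLT K (Good K ρ) (2 * m₀ + 4) := by
  intro m₀
  induction m₀ with
  | zero =>
    intro m ρ hp hm
    obtain ⟨n, ρ', i, hl, -, hn⟩ := exists_lower K ρ hp le_rfl
    have hn0 : n = 0 := by simpa using hn
    subst hn0
    have : Subsingleton (Good K ρ') := inferInstanceAs (Subsingleton (Fin 5 → Fin 0 → K))
    refine ⟨?_, not_pd_base hl hp one_ne_zero rfl hm⟩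
    exact (pd_transfer hl hp one_ne_zero).1 3 le_rfl (pd_subsingleton _ _)
  | succ m₀ ih =>
    intro m ρ hp hm
    obtain ⟨n, ρ', i, hl, hp', hn⟩ := exists_lower K ρ hp (by omega)
    have hn' : 0 < n := by
      by_contra h0
      have h : n = 0 := by omega
      rw [h] at hn
      simp only [Nat.cast_zero, zero_mul, Nat.cast_add, Nat.cast_one, add_sub_cancel_right] at hn
      have h1 : (m : K) * ((m₀ : K) + 1) = 0 := hn.symm
      rcases mul_eq_zero.mp h1 with h2 | h2
      · exact hm.ne' (Nat.cast_eq_zero.mp h2)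
      · exact Nat.cast_add_one_ne_zero m₀ h2
    obtain ⟨hup, hlow⟩ := ih n ρ' (by simpa using hp') hn'
    obtain ⟨t1, t2, -⟩ := pd_transfer hl hp (by omega)
    refine ⟨PdLT.mono (t1 _ (by omega) hup) (by omega), fun h => hlow ?_⟩
    exact t2 (2 * m₀ + 3) (by omega) hup h

/-- the algebra has modules of arbitrarily large finite projective dimension -/
theorem findim_unbounded (n : ℕ) :
    ∃ M : ModuleCat.{0} (Alg K), Module.Finite (Alg K) M ∧
      (∃ d, HasProjectiveDimensionLT M d) ∧ ¬ HasProjectiveDimensionLT M n := by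
  obtain ⟨ρ, hρ⟩ := exists_std K (n + 1)
  obtain ⟨h1, h2⟩ := pd_exact n (n + 1) ρ hρ n.succ_pos
  exact ⟨ModuleCat.of (Alg K) (Good K ρ), Good_finite K ρ, ⟨_, h1⟩,
    fun h => h2 (PdLT.mono h (by omega))⟩

end Vale.Agent.P176
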