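import Vale.Agent.P176.Algebra

/-!
Modules over the block algebra and the finite-dimensional algebra.
-/

namespace Vale.Agent.P176

open MvPolynomial Matrix

variable (K : Type) [Field K]

theorem lvl_smul_last {G : Type} [AddCommGroup G] [Module (U K) G] (s : Sg K) (v : Lvl G)
    (i : Fin 5) : (s • v) i last3 = ∑ l, bet K s i l • v l last3 := by
  show ∑ l, ∑ c, mat K s i l last3 c • v l c = _
  refine Finset.sum_congr rfl fun l _ => ?_
  rw [Fin.sum_univ_castSucc, Finset.sum_eq_zero, zero_add]
  · rfl
  · intro c _; rw [(ins K s).lower]; exact zero_smul _ _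

theorem lvl_smul_cast {G : Type} [AddCommGroup G] [Module (U K) G] (s : Sg K) (v : Lvl G)
    (i : Fin 5) (a : Fin 2) : (s • v) i a.castSucc
      = ∑ l, ((∑ e : Fin 2, Delta K (bet K s i l) a e • v l e.castSucc)
          + xi K s i l a • v l last3) := by
  show ∑ l, ∑ c, mat K s i l a.castSucc c • v l c = _
  refine Finset.sum_congr rfl fun l _ => ?_
  rw [Fin.sum_univ_castSucc]
  simp only [(ins K s).upper]
  rfl

/-- vectors of vectors in filtration degree `d` -/
noncomputable def FV (a m : ℕ) (d : ℤ) : Submodule K (Fin a → Fin m → U K) :=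
  Submodule.pi Set.univ fun _ => Submodule.pi Set.univ fun _ => FilZ K d

theorem mem_FV {a m : ℕ} {d : ℤ} {v : Fin a → Fin m → U K} :
    v ∈ FV K a m d ↔ ∀ k j, v k j ∈ FilZ K d := by simp [FV]

theorem FV_smul {a m : ℕ} {d e f : ℤ} {u : U K} {v : Fin a → Fin m → U K}
    (hu : u ∈ FilZ K d) (hv : v ∈ FV K a m e) (h : d + e ≤ f) : u • v ∈ FV K a m f := by
  rw [mem_FV] at hv ⊢
  exact fun k j => FilZ_mono K h (FilZ_mul K hu (hv k j))

theorem FV_mono {a m : ℕ} {d e : ℤ} (h : d ≤ e) : FV K a m d ≤ FV K a m e := fun v hv => by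
  rw [mem_FV] at hv ⊢
  exact fun k j => FilZ_mono K h (hv k j)

variable (p : Fin 5) (a m : ℕ)

/-- lifts of the free module generated at level `p` -/
noncomputable def qhat : Submodule (Sg K) (Lvl (Fin a → Fin m → U K)) where
  carrier := {v | (∀ i : Fin 5, v i last3 ∈ FV K a m ((i : ℤ) - p)) ∧
    ∀ (i : Fin 5) (c : Fin 2), v i c.castSucc ∈ FV K a m ((i : ℤ) + 1 - p)}
  add_mem' := fun {v w} hv hw =>
    ⟨fun i => add_mem (hv.1 i) (hw.1 i), fun i c => add_mem (hv.2 i c) (hw.2 i c)⟩
  zero_mem' := ⟨fun i => zero_mem _, fun i c => zero_mem _⟩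
  smul_mem' := by
    rintro s v ⟨h1, h2⟩
    refine ⟨fun i => ?_, fun i c => ?_⟩
    · rw [lvl_smul_last]
      exact Submodule.sum_mem _ fun l _ => FV_smul K ((ins K s).diag i l) (h1 l) (by omega)
    · rw [lvl_smul_cast]
      refine Submodule.sum_mem _ fun l _ => add_mem (Submodule.sum_mem _ fun e _ => ?_) ?_
      · exact FV_smul K (DeltaZ_mem K ((ins K s).diag i l) c e) (h2 l e) (by omega)
      · exact FV_smul K ((ins K s).corner i l c) (h1 l) (by omega)

/-- the part which is divided out -/
noncomputable def jay : Submodule (Sg K) (Lvl (Fin a → Fin m → U K)) where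
  carrier := {v | (∀ i, v i last3 = 0) ∧ ∀ i : Fin 5, ∃ η : Fin 2 → (Fin a → Fin m → U K),
    (∀ c, η c ∈ FV K a m ((i : ℤ) - p)) ∧ ∀ c, v i c.castSucc = ∑ e, Fm K c e • η e}
  add_mem' := by
    rintro v w ⟨h1, h2⟩ ⟨h1', h2'⟩
    refine ⟨fun i => by simp [h1, h1'], fun i => ?_⟩
    obtain ⟨η, hη, e⟩ := h2 i
    obtain ⟨η', hη', e'⟩ := h2' i
    refine ⟨η + η', fun c => add_mem (hη c) (hη' c), fun c => ?_⟩
    simp [e c, e' c, smul_add, Finset.sum_add_distrib]
  zero_mem' := ⟨fun i => rfl, fun i => ⟨0, fun c => zero_mem _, fun c => by simp⟩⟩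
  smul_mem' := by
    rintro s v ⟨h1, h2⟩
    refine ⟨fun i => by simp [lvl_smul_last, h1], fun i => ?_⟩
    choose η hη e using h2
    refine ⟨fun c => ∑ l, ∑ d, Delta K (bet K s i l) c d • η l d, fun c => ?_, fun c => ?_⟩
    · exact Submodule.sum_mem _ fun l _ => Submodule.sum_mem _ fun d _ =>
        FV_smul K (DeltaZ_mem K ((ins K s).diag i l) c d) (hη l d) (by omega)
    · rw [lvl_smul_cast]
      simp only [h1, smul_zero, add_zero, e, Finset.smul_sum, smul_smul]
      symm
      rw [Finset.sum_comm]
      refine Finset.sum_congr rfl fun l _ => ?_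
      rw [Finset.sum_comm]
      conv_rhs => rw [Finset.sum_comm]
      refine Finset.sum_congr rfl fun d _ => ?_
      rw [← Finset.sum_smul, ← Finset.sum_smul]
      congr 1
      exact congrFun (congrFun (Fm_Delta K (bet K s i l)) c) d

/-- the module `A ⊗ (free B-module at level p)` -/
abbrev Q := (qhat K p a m) ⧸ (jay K p a m).comap (qhat K p a m).subtype

noncomputable abbrev mkQ (v : qhat K p a m) : Q K p a m :=
  Submodule.Quotient.mk v

theorem mkQ_eq_zero {v : qhat K p a m} :
    mkQ K p a m v = 0 ↔ (v : Lvl (Fin a → Fin m → U K)) ∈ jay K p a m := by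
  rw [Submodule.Quotient.mk_eq_zero]; rfl

theorem Q_torsion : Module.IsTorsionBySet (Sg K) (Q K p a m) (J K : Set (Sg K)) := by
  intro x s
  obtain ⟨v, rfl⟩ := Submodule.Quotient.mk_surjective _ x
  obtain ⟨s, hs, hs'⟩ := s
  show (s : Sg K) • mkQ K p a m v = 0
  rw [← Submodule.Quotient.mk_smul, mkQ_eq_zero]
  refine ⟨fun i => by simp [lvl_smul_last, hs], fun i => ?_⟩
  choose η hη e using hs'
  refine ⟨fun c => ∑ l, η i l c • (v : Lvl (Fin a → Fin m → U K)) l last3, fun c => ?_,
    fun c => ?_⟩
  · exact Submodule.sum_mem _ fun l _ => FV_smul K (hη i l c) (v.2.1 l) (by omega)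
  · rw [Submodule.coe_smul, lvl_smul_cast]
    simp only [hs, map_zero, Matrix.zero_apply, zero_smul, Finset.sum_const_zero, zero_add, e,
      Matrix.mulVec, dotProduct, Finset.sum_smul, Finset.smul_sum, smul_smul]
    exact Finset.sum_comm

noncomputable instance : Module (Alg K) (Q K p a m) := (Q_torsion K p a m).module

theorem Q_mk_smul (s : Sg K) (x : Q K p a m) :
    (Ideal.Quotient.mk (J K) s) • x = s • x := rfl

variable {m} (ρ : U K →ₐ[K] Module.End K (Fin m → K))

/-- the level-wise constant module of a `U`-module -/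
def Good (_ρ : U K →ₐ[K] Module.End K (Fin m → K)) : Type := Fin 5 → Fin m → K

noncomputable instance : AddCommGroup (Good K ρ) :=
  inferInstanceAs (AddCommGroup (Fin 5 → Fin m → K))

noncomputable instance : Module (Sg K) (Good K ρ) where
  smul s v i := ∑ l, ρ (bet K s i l) (v l)
  one_smul v := by
    funext i
    show ∑ l, ρ (bet K 1 i l) (v l) = v i
    rw [Finset.sum_eq_single i] <;> simp +contextual [bet, mat_one, Matrix.one_apply, eq_comm]
  mul_smul s t v := by
    funext i
    show ∑ l, ρ (bet K (s * t) i l) (v l) = ∑ l, ρ (bet K s i l) (∑ l', ρ (bet K t l l') (v l'))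
    simp only [bet_mul, map_sum, LinearMap.coe_sum, Finset.sum_apply, map_mul,
      Module.End.mul_apply]
    exact Finset.sum_comm
  smul_zero s := by
    funext i
    show ∑ l, ρ (bet K s i l) (0 : Fin m → K) = (0 : Fin m → K)
    simp
  smul_add s v w := by
    funext i
    show ∑ l, ρ (bet K s i l) ((v : Fin 5 → Fin m → K) l + (w : Fin 5 → Fin m → K) l) = _ + _
    simp only [map_add, Finset.sum_add_distrib]
    rfl
  add_smul s t v := by
    funext i
    show ∑ l, ρ (bet K s i l + bet K t i l) ((v : Fin 5 → Fin m → K) l) = _ + _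
    simp only [map_add, LinearMap.add_apply, Finset.sum_add_distrib]
    rfl
  zero_smul v := by
    funext i
    show ∑ l, ρ (0 : U K) ((v : Fin 5 → Fin m → K) l) = (0 : Fin m → K)
    simp

theorem good_smul (s : Sg K) (v : Good K ρ) (i : Fin 5) :
    (s • v) i = ∑ l, ρ (bet K s i l) (v l) := rfl

theorem Good_torsion : Module.IsTorsionBySet (Sg K) (Good K ρ) (J K : Set (Sg K)) := by
  intro x s
  obtain ⟨s, hs, hs'⟩ := s
  funext i
  show ∑ l, ρ (bet K s i l) (x l) = (0 : Fin m → K)
  simp [hs]

noncomputable instance : Module (Alg K) (Good K ρ) := (Good_torsion K ρ).module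

theorem Good_mk_smul (s : Sg K) (x : Good K ρ) :
    (Ideal.Quotient.mk (J K) s) • x = s • x := rfl

instance Good_finite : Module.Finite (Alg K) (Good K ρ) := by
  classical
  let e : Fin 5 → Fin m → Good K ρ := fun i j => Pi.single i (Pi.single j (1 : K))
  refine ⟨⟨Finset.univ.image (fun q : Fin 5 × Fin m => e q.1 q.2), ?_⟩⟩
  rw [eq_top_iff]
  intro v _
  rw [Finset.coe_image, Finset.coe_univ, Set.image_univ]
  have hv : v = ∑ q : Fin 5 × Fin m,
      (Ideal.Quotient.mk (J K) (algebraMap K (Sg K) (v q.1 q.2))) • e q.1 q.2 := by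
    funext i
    have hc : ∀ (r : K) (w : Good K ρ), (algebraMap K (Sg K) r • w) i = r • w i := by
      intro r w
      rw [good_smul, Finset.sum_eq_single i] <;>
        simp +contextual [bet, mat_algebraMap, Matrix.algebraMap_matrix_apply, eq_comm]
    have hs : ∀ (f : Fin 5 × Fin m → Good K ρ),
        (∑ q, f q) i = ∑ q, (f q i : Fin m → K) := fun f => Finset.sum_apply i _ f
    rw [hs]
    simp only [Good_mk_smul, hc]
    funext j
    rw [Finset.sum_apply, Fintype.sum_prod_type, Finset.sum_eq_single i]
    · rw [Finset.sum_eq_single j] <;> simp +contextual [e, eq_comm]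
    · intro i' _ hi'
      exact Finset.sum_eq_zero fun j' _ => by simp [e, hi'.symm]
    · simp
  rw [hv]
  exact Submodule.sum_mem _ fun q _ =>
    Submodule.smul_mem _ _ (Submodule.subset_span ⟨q, rfl⟩)

variable {a} {p}

/-- a linear map over `Sg` as a linear map over the algebra -/
noncomputable def toA {X Y : Type} [AddCommGroup X] [AddCommGroup Y] [Module (Sg K) X] [Module (Sg K) Y]
    [Module (Alg K) X] [Module (Alg K) Y]
    (hX : ∀ (s : Sg K) (x : X), (Ideal.Quotient.mk (J K) s) • x = s • x)
    (hY : ∀ (s : Sg K) (y : Y), (Ideal.Quotient.mk (J K) s) • y = s • y)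
    (f : X →ₗ[Sg K] Y) : X →ₗ[Alg K] Y where
  toFun := f
  map_add' := f.map_add
  map_smul' r x := by
    obtain ⟨s, rfl⟩ := Ideal.Quotient.mk_surjective r
    simp [hX, hY]

/-- the level map -/
noncomputable def lvlMap {G H : Type} [AddCommGroup G] [AddCommGroup H] [Module (U K) G]
    [Module (U K) H] (f : G →ₗ[U K] H) : Lvl G →ₗ[Sg K] Lvl H where
  toFun v i c := f (v i c)
  map_add' v w := by funext i c; exact map_add f _ _
  map_smul' s v := by
    funext i c
    show f (∑ l, ∑ d, mat K s i l c d • v l d) = ∑ l, ∑ d, mat K s i l c d • f (v l d)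
    simp [map_sum]

variable {b : ℕ} {q : Fin 5}

/-- maps of filtered free modules give maps of the `Q`s -/
noncomputable def qmap (f : (Fin a → Fin m → U K) →ₗ[U K] (Fin b → Fin m → U K))
    (hf : ∀ (d : ℤ) v, v ∈ FV K a m (d - p) → f v ∈ FV K b m (d - q)) :
    Q K p a m →ₗ[Alg K] Q K q b m :=
  toA K (Q_mk_smul K p a m) (Q_mk_smul K q b m)
    (Submodule.mapQ _ _ ((lvlMap K f).restrict (p := qhat K p a m) (q := qhat K q b m)
      fun v hv => ⟨fun i => hf _ _ (hv.1 i), fun i c => hf _ _ (hv.2 i c)⟩)
      (by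
        rintro ⟨v, hv⟩ ⟨h1, h2⟩
        refine ⟨fun i => ?_, fun i => ?_⟩
        · show f (v i last3) = 0
          rw [show v i last3 = 0 from h1 i, map_zero]
        · obtain ⟨η, hη, e⟩ := h2 i
          refine ⟨fun c => f (η c), fun c => hf _ _ (hη c), fun c => ?_⟩
          show f (v i c.castSucc) = ∑ e, Fm K c e • f (η e)
          rw [show v i c.castSucc = _ from e c]
          simp [map_sum]))

/-- a single column -/
noncomputable def colBig (v : Lvl (Fin a → Fin m → U K)) (k : Fin a) (j : Fin m) : Big K :=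
  fun i l => if l = p then blk K (v i last3 k j) (fun c => v i c.castSucc k j) else 0

theorem col_mem {v : Lvl (Fin a → Fin m → U K)} (hv : v ∈ qhat K p a m) (k : Fin a) (j : Fin m) :
    InS K (colBig K (p := p) v k j) := by
  refine ⟨fun i l => ?_, fun i l c d => ?_, fun i l c => ?_, fun i l c => ?_⟩
  · by_cases h : l = p
    · subst h; simpa [colBig, blk] using mem_FV K |>.mp (hv.1 i) k j
    · simp [colBig, h]
  · by_cases h : l = p <;> simp [colBig, blk, h]
  · by_cases h : l = p <;> simp [colBig, blk, h]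
  · by_cases h : l = p
    · subst h; simpa [colBig, blk] using mem_FV K |>.mp (hv.2 i c) k j
    · simp [colBig, h]

noncomputable def col (v : qhat K p a m) (k : Fin a) (j : Fin m) : Sg K :=
  ofMat K (colBig K (p := p) v k j) (col_mem K v.2 k j)

theorem bet_col (v : qhat K p a m) (k : Fin a) (j : Fin m) (i l : Fin 5) :
    bet K (col K v k j) i l
      = if l = p then (v : Lvl (Fin a → Fin m → U K)) i last3 k j else 0 := by
  by_cases h : l = p <;> simp [bet, col, ofMat, mat, colBig, blk, h]

theorem xi_col (v : qhat K p a m) (k : Fin a) (j : Fin m) (i l : Fin 5) :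
    xi K (col K v k j) i l
      = if l = p then (fun c : Fin 2 => (v : Lvl (Fin a → Fin m → U K)) i c.castSucc k j) else 0 := by
  funext c
  by_cases h : l = p <;> simp [xi, col, ofMat, mat, colBig, blk, h]

/-- coordinates in columns -/
noncomputable def colMap : qhat K p a m →ₗ[Sg K] (Fin a → Fin m → Alg K) where
  toFun v k j := Ideal.Quotient.mk (J K) (col K v k j)
  map_add' v w := by
    funext k j
    show _ = Ideal.Quotient.mk (J K) _ + Ideal.Quotient.mk (J K) _
    rw [← map_add]
    congr 1
    refine Sg_ext K (fun i l => ?_) (fun i l => ?_)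
    · rw [show bet K (col K v k j + col K w k j) i l
        = bet K (col K v k j) i l + bet K (col K w k j) i l from rfl, bet_col, bet_col, bet_col]
      split_ifs <;> simp
    · rw [show xi K (col K v k j + col K w k j) i l
        = xi K (col K v k j) i l + xi K (col K w k j) i l from rfl, xi_col, xi_col, xi_col]
      split_ifs
      · rfl
      · simp
  map_smul' s v := by
    funext k j
    show _ = s • Ideal.Quotient.mk (J K) (col K v k j)
    rw [show s • Ideal.Quotient.mk (J K) (col K v k j)
      = Ideal.Quotient.mk (J K) (s * col K v k j) from rfl]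
    congr 1
    refine Sg_ext K (fun i l => ?_) (fun i l => ?_)
    · simp only [bet_mul, bet_col, Submodule.coe_smul, lvl_smul_last]
      by_cases h : l = p <;> simp [h, Finset.sum_apply]
    · funext c
      simp only [xi_mul, bet_col, xi_col, Submodule.coe_smul, lvl_smul_cast]
      by_cases h : l = p
      · simp only [h, if_true, Finset.sum_apply, Pi.add_apply, Matrix.mulVec, dotProduct,
          Pi.smul_apply, smul_eq_mul]
      · simp [h, Finset.sum_apply, Pi.add_apply, Matrix.mulVec, dotProduct]

/-- a generator -/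
noncomputable def genQ (k : Fin a) (j : Fin m) : qhat K p a m :=
  ⟨fun i c => if i = p ∧ c = last3 then Pi.single k (Pi.single j 1) else 0, by
    refine ⟨fun i => ?_, fun i c => ?_⟩
    · by_cases h : i = p
      · subst h
        rw [mem_FV]
        intro k' j'
        simp only [and_self, if_true, sub_self]
        rw [show (0 : ℤ) = ((0 : ℕ) : ℤ) from rfl, FilZ_natCast]
        by_cases hk : k' = k <;> by_cases hj : j' = j <;>
          simp [hk, hj, one_mem_Fil K 0]
      · simp [h]
    · simp [(Fin.castSucc_lt_last c).ne]⟩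

theorem col_decomp (v : qhat K p a m) :
    (∑ k, ∑ j, col K v k j • (genQ K (p := p) k j)) = v := by
  apply Subtype.ext
  funext i c
  simp only [Submodule.coe_sum, Finset.sum_apply, Submodule.coe_smul]
  have key : ∀ k j, (col K v k j • (genQ K (p := p) k j : Lvl (Fin a → Fin m → U K))) i c
      = Pi.single k (Pi.single j ((v : Lvl (Fin a → Fin m → U K)) i c k j)) := by
    intro k j
    cases c using Fin.lastCases with
    | last =>
      rw [lvl_smul_last, Finset.sum_eq_single p]
      · ext k' j'
        by_cases hk : k' = k <;> by_cases hj : j' = j <;> simp [bet_col, genQ, hk, hj] <;> rfl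
      · intro l _ hl; simp [genQ, hl]
      · simp
    | cast c =>
      rw [lvl_smul_cast, Finset.sum_eq_single p]
      · ext k' j'
        by_cases hk : k' = k <;> by_cases hj : j' = j <;>
          simp [xi_col, genQ, hk, hj, (Fin.castSucc_lt_last _).ne]
      · intro l _ hl; simp [genQ, hl, (Fin.castSucc_lt_last _).ne]
      · simp
  simp only [key]
  ext k' j'
  rw [Finset.sum_apply, Finset.sum_apply, Finset.sum_eq_single k']
  · rw [Finset.sum_apply, Finset.sum_apply, Finset.sum_eq_single j'] <;>
      simp +contextual [eq_comm]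
  · intro k _ hk; simp [Finset.sum_apply, hk.symm]
  · simp

noncomputable def sectionQ : Q K p a m →ₗ[Alg K] (Fin a → Fin m → Alg K) :=
  toA K (Q_mk_smul K p a m) (fun s x => rfl)
    (Submodule.liftQ _ (colMap K) (by
      rintro v ⟨h1, h2⟩
      rw [LinearMap.mem_ker]
      funext k j
      refine (Ideal.Quotient.eq_zero_iff_mem).mpr ⟨fun i l => ?_, fun i l => ?_⟩
      · have e : (v : Lvl (Fin a → Fin m → U K)) i last3 = 0 := h1 i
        simp [bet_col, e]
      · by_cases h : l = p
        · obtain ⟨η, hη, e⟩ := h2 i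
          subst h
          refine ⟨fun c => η c k j, fun c => mem_FV K |>.mp (hη c) k j, ?_⟩
          funext c
          have e' : (v : Lvl (Fin a → Fin m → U K)) i c.castSucc = _ := e c
          simp [xi_col, e', Matrix.mulVec, dotProduct, Finset.sum_apply]
        · exact ⟨0, fun c => zero_mem _, by simp [xi_col, h]⟩))

noncomputable def assemble : (Fin a → Fin m → Alg K) →ₗ[Alg K] Q K p a m where
  toFun f := ∑ k, ∑ j, f k j • mkQ K p a m (genQ K k j)
  map_add' f f' := by simp [add_smul, Finset.sum_add_distrib]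
  map_smul' r f := by simp [Finset.smul_sum, smul_smul]

theorem assemble_section (x : Q K p a m) : assemble K (sectionQ K x) = x := by
  obtain ⟨v, rfl⟩ := Submodule.Quotient.mk_surjective _ x
  conv_rhs => rw [← col_decomp K v]
  show ∑ k, ∑ j, Ideal.Quotient.mk (J K) (col K v k j) • mkQ K p a m (genQ K k j) = _
  simp only [Q_mk_smul, ← Submodule.Quotient.mk_smul]
  simp [← Submodule.mkQ_apply, map_sum]

instance Q_projective : Module.Projective (Alg K) (Q K p a m) :=
  Module.Projective.of_split (sectionQ K) (assemble K)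
    (LinearMap.ext (assemble_section K))

end Vale.Agent.P176
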