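import Vale.Agent.P176.Enveloping

/-!
The filtered Chevalley–Eilenberg resolution of a finite-dimensional gl(2)-module over `U`.
-/

namespace Vale.Agent.P176

open MvPolynomial

section Generic

variable {S G : Type} [Semiring S] [AddCommGroup G] [Module S G]

noncomputable def cd0 (R : Fin 4 → Module.End S G) : (Fin 4 → G) →ₗ[S] G :=
  (R 1).comp (LinearMap.proj 0) + (R 0).comp (LinearMap.proj 1) + (R 2).comp (LinearMap.proj 2)
    + (R 3).comp (LinearMap.proj 3)

noncomputable def cd1 (R : Fin 4 → Module.End S G) (κ : ℤ) : (Fin 6 → G) →ₗ[S] (Fin 4 → G) where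
  toFun v := ![-R 0 (v 0) - R 2 (v 1) + (2 * κ) • v 1 + R 3 (v 3),
    R 1 (v 0) - R 2 (v 2) - (2 * κ) • v 2 + R 3 (v 4),
    -(κ • v 0) + R 1 (v 1) + R 0 (v 2) + R 3 (v 5),
    -(R 1 (v 3) + R 0 (v 4) + R 2 (v 5))]
  map_add' v w := by
    ext i; fin_cases i <;> simp [smul_add] <;> abel
  map_smul' c v := by
    ext i; fin_cases i <;> simp [smul_add, smul_sub, smul_comm c, map_smul] <;> abel

noncomputable def cd2 (R : Fin 4 → Module.End S G) (κ : ℤ) : (Fin 4 → G) →ₗ[S] (Fin 6 → G) where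
  toFun v := ![R 2 (v 0) + R 3 (v 1), -R 0 (v 0) + R 3 (v 2), R 1 (v 0) + R 3 (v 3),
    -(-R 0 (v 1) - R 2 (v 2) + (2 * κ) • v 2),
    -(R 1 (v 1) - R 2 (v 3) - (2 * κ) • v 3),
    -(-(κ • v 1) + R 1 (v 2) + R 0 (v 3))]
  map_add' v w := by
    ext i; fin_cases i <;> simp [smul_add] <;> abel
  map_smul' c v := by
    ext i; fin_cases i <;> simp [smul_add, smul_sub, smul_comm c, map_smul] <;> abel

noncomputable def cd3 (R : Fin 4 → Module.End S G) : G →ₗ[S] (Fin 4 → G) where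
  toFun t := ![R 3 t, -R 2 t, R 0 t, -R 1 t]
  map_add' v w := by
    ext i; fin_cases i <;> simp <;> abel
  map_smul' c v := by
    ext i; fin_cases i <;> simp

/-- bracket relations of a right action -/
structure IsRight (R : Fin 4 → Module.End S G) : Prop where
  ef : ∀ u, R 1 (R 0 u) = R 0 (R 1 u) - R 2 u
  eh : ∀ u, R 1 (R 2 u) = R 2 (R 1 u) + (2 : ℤ) • R 1 u
  fh : ∀ u, R 0 (R 2 u) = R 2 (R 0 u) - (2 : ℤ) • R 0 u
  z : ∀ i u, R 3 (R i u) = R i (R 3 u)

theorem cd0_cd1 {R : Fin 4 → Module.End S G} (h : IsRight R) (v : Fin 6 → G) :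
    cd0 R (cd1 R 1 v) = 0 := by
  simp [cd0, cd1, h.ef, h.eh, h.fh, h.z]
  module

theorem cd1_cd2 {R : Fin 4 → Module.End S G} (h : IsRight R) (v : Fin 4 → G) :
    cd1 R 1 (cd2 R 1 v) = 0 := by
  ext i
  fin_cases i <;> simp [cd1, cd2, h.ef, h.eh, h.fh, h.z] <;> module

theorem cd2_cd3 {R : Fin 4 → Module.End S G} (h : IsRight R) (t : G) :
    cd2 R 1 (cd3 R t) = 0 := by
  ext i
  fin_cases i <;> simp [cd2, cd3, h.ef, h.eh, h.fh, h.z] <;> module

end Generic

variable (K : Type) [Field K]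

/-- polynomial symbols -/
noncomputable def Sym (i : Fin 4) : Module.End K (P K) := mX K i

noncomputable def h0 (t : P K) : Fin 4 → P K :=
  ![pderiv 1 t, pderiv 0 t, pderiv 2 t, pderiv 3 t]

noncomputable def h1 (v : Fin 4 → P K) : Fin 6 → P K :=
  ![pderiv 1 (v 1) - pderiv 0 (v 0), pderiv 1 (v 2) - pderiv 2 (v 0),
    pderiv 0 (v 2) - pderiv 2 (v 1), pderiv 3 (v 0) - pderiv 1 (v 3),
    pderiv 3 (v 1) - pderiv 0 (v 3), pderiv 3 (v 2) - pderiv 2 (v 3)]

noncomputable def h2 (v : Fin 6 → P K) : Fin 4 → P K :=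
  ![pderiv 1 (v 2) - pderiv 0 (v 1) + pderiv 2 (v 0),
    pderiv 3 (v 0) - (pderiv 1 (v 4) - pderiv 0 (v 3)),
    pderiv 3 (v 1) - (pderiv 1 (v 5) - pderiv 2 (v 3)),
    pderiv 3 (v 2) - (pderiv 0 (v 5) - pderiv 2 (v 4))]

noncomputable def h3 (v : Fin 4 → P K) : P K :=
  pderiv 3 (v 0) - (pderiv 1 (v 3) - pderiv 0 (v 2) + pderiv 2 (v 1))

theorem euler {k : ℕ} {t : P K} (ht : t.IsHomogeneous k) :
    X 0 * pderiv 0 t + X 1 * pderiv 1 t + X 2 * pderiv 2 t + X 3 * pderiv 3 t = k • t := by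
  have := IsHomogeneous.sum_X_mul_pderiv ht
  rwa [Fin.sum_univ_four] at this

theorem sym_homotopy0 {k : ℕ} {t : P K} (ht : t.IsHomogeneous k) :
    cd0 (Sym K) (h0 K t) = k • t := by
  rw [← euler K ht]
  simp [cd0, h0, Sym, mX]
  ring

theorem sym_homotopy1 {k : ℕ} {v : Fin 4 → P K} (hv : ∀ i, (v i).IsHomogeneous k) :
    cd1 (Sym K) 0 (h1 K v) + h0 K (cd0 (Sym K) v) = (k + 1) • v := by
  ext1 i
  simp only [Pi.add_apply, Pi.smul_apply, add_smul, one_smul]
  rw [← euler K (hv i)]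
  fin_cases i <;> simp [cd0, cd1, h0, h1, Sym, mX, pderiv_mul] <;> ring

theorem sym_homotopy2 {k : ℕ} {v : Fin 6 → P K} (hv : ∀ i, (v i).IsHomogeneous k) :
    cd2 (Sym K) 0 (h2 K v) + h1 K (cd1 (Sym K) 0 v) = (k + 2) • v := by
  ext1 i
  simp only [Pi.add_apply, Pi.smul_apply, add_smul]
  rw [← euler K (hv i)]
  fin_cases i <;> simp [cd1, cd2, h1, h2, Sym, mX, pderiv_mul, two_mul] <;> ring

theorem sym_homotopy3 {k : ℕ} {v : Fin 4 → P K} (hv : ∀ i, (v i).IsHomogeneous k) :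
    cd3 (Sym K) (h3 K v) + h2 K (cd2 (Sym K) 0 v) = (k + 3) • v := by
  ext1 i
  simp only [Pi.add_apply, Pi.smul_apply, add_smul]
  rw [← euler K (hv i)]
  fin_cases i <;> simp [cd2, cd3, h2, h3, Sym, mX, pderiv_mul] <;> ring

variable {m : ℕ}

/-- a matrix of scalars acting on vectors over `U` -/
noncomputable def act (Q : Matrix (Fin m) (Fin m) K) : Module.End (U K) (Fin m → U K) where
  toFun u j := ∑ i, Q j i • u i
  map_add' u v := by ext j; simp [Finset.sum_add_distrib]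
  map_smul' c u := by ext j; simp [Finset.mul_sum]

/-- right multiplication by a generator, twisted by the module -/
noncomputable def Rop (A : Fin 4 → Matrix (Fin m) (Fin m) K) (x : Fin 4) :
    Module.End (U K) (Fin m → U K) where
  toFun u j := u j * g K x - act K (A x) u j
  map_add' u v := by
    ext j; simp [add_mul, Pi.add_apply]; abel
  map_smul' c u := by
    ext j; simp [mul_sub, mul_assoc]

variable (ρ : U K →ₐ[K] Module.End K (Fin m → K))

/-- matrices of the generators -/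
noncomputable def gmat (x : Fin 4) : Matrix (Fin m) (Fin m) K :=
  LinearMap.toMatrixAlgEquiv' (ρ (g K x))

noncomputable abbrev RR (x : Fin 4) : Module.End (U K) (Fin m → U K) := Rop K (gmat K ρ) x

theorem act_mul (P Q : Matrix (Fin m) (Fin m) K) (u : Fin m → U K) :
    act K P (act K Q u) = act K (P * Q) u := by
  ext j
  simp only [act, LinearMap.coe_mk, AddHom.coe_mk, Finset.smul_sum, smul_smul, Matrix.mul_apply,
    Finset.sum_smul]
  exact Finset.sum_comm

theorem Rop_Rop (A : Fin 4 → Matrix (Fin m) (Fin m) K) (x y : Fin 4) (u : Fin m → U K)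
    (j : Fin m) :
    Rop K A x (Rop K A y u) j = u j * (g K y * g K x) - act K (A y) (fun i => u i * g K x) j
      - act K (A x) (fun i => u i * g K y) j + act K (A x * A y) u j := by
  rw [← act_mul K (A x) (A y)]
  simp only [Rop, act, LinearMap.coe_mk, AddHom.coe_mk, sub_mul, mul_assoc, Finset.sum_mul,
    smul_mul_assoc, smul_sub, Finset.sum_sub_distrib]
  abel

theorem isRight : IsRight (RR K ρ) := by
  have hsub : ∀ P Q (u : Fin m → U K), act K (P - Q) u = act K P u - act K Q u := by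
    intro P Q u; ext j
    simp only [act, LinearMap.coe_mk, AddHom.coe_mk, Pi.sub_apply, Matrix.sub_apply,
      ← Finset.sum_sub_distrib]
    exact Finset.sum_congr rfl fun i _ => by module
  have hadd : ∀ P Q (u : Fin m → U K), act K (P + Q) u = act K P u + act K Q u := by
    intro P Q u; ext j; simp [act, add_smul, Finset.sum_add_distrib]
  have hA : ∀ a b, gmat K ρ a * gmat K ρ b = LinearMap.toMatrixAlgEquiv' (ρ (g K a * g K b)) :=
    fun a b => by simp [gmat]
  refine ⟨fun u => ?_, fun u => ?_, fun u => ?_, fun i u => ?_⟩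
  · ext j
    have h : gmat K ρ 1 * gmat K ρ 0 = gmat K ρ 0 * gmat K ρ 1 + gmat K ρ 2 := by
      simp only [hA, gEF, map_add]; rfl
    simp only [Pi.sub_apply, Rop_Rop, h, hadd, Pi.add_apply]
    simp only [gEF, mul_add, Rop, LinearMap.coe_mk, AddHom.coe_mk]
    abel
  · ext j
    have h : gmat K ρ 2 * gmat K ρ 1
        = gmat K ρ 1 * gmat K ρ 2 + (gmat K ρ 1 + gmat K ρ 1) := by
      simp only [hA, gHE, two_mul, map_add]; rfl
    simp only [Pi.add_apply, Pi.smul_apply, Rop_Rop, h, hadd, Pi.add_apply]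
    simp only [gHE, two_mul, mul_add, Rop, LinearMap.coe_mk, AddHom.coe_mk]
    module
  · ext j
    have h : gmat K ρ 2 * gmat K ρ 0
        = gmat K ρ 0 * gmat K ρ 2 - (gmat K ρ 0 + gmat K ρ 0) := by
      simp only [hA, gHF, two_mul, map_sub, map_add]; rfl
    simp only [Pi.sub_apply, Pi.smul_apply, Rop_Rop, h, hadd, hsub, Pi.sub_apply, Pi.add_apply]
    simp only [gHF, two_mul, mul_sub, mul_add, Rop, LinearMap.coe_mk, AddHom.coe_mk]
    module
  · ext j
    have h : gmat K ρ 3 * gmat K ρ i = gmat K ρ i * gmat K ρ 3 := by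
      simp only [hA, gZ]
    simp only [Rop_Rop, h, gZ]
    abel

/-- the augmentation -/
noncomputable def aug (u : Fin m → U K) : Fin m → K := ∑ j, ρ (u j) (Pi.single j 1)

theorem aug_add (u v : Fin m → U K) : aug K ρ (u + v) = aug K ρ u + aug K ρ v := by
  simp [aug, Finset.sum_add_distrib]

theorem aug_smul (a : U K) (u : Fin m → U K) : aug K ρ (a • u) = ρ a (aug K ρ u) := by
  simp [aug, map_sum]

theorem aug_sub (u v : Fin m → U K) : aug K ρ (u - v) = aug K ρ u - aug K ρ v := by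
  simp [aug, Finset.sum_sub_distrib]

theorem aug_algebraMap (c : Fin m → K) :
    aug K ρ (fun j => algebraMap K (U K) (c j)) = c := by
  ext i
  simp [aug, Pi.single_apply, Finset.sum_apply]

theorem aug_Rop (x : Fin 4) (u : Fin m → U K) : aug K ρ (RR K ρ x u) = 0 := by
  have h : ∀ j, ρ (g K x) (Pi.single j 1) = ∑ i, gmat K ρ x i j • (Pi.single i (1 : K)) := by
    intro j
    ext k
    simp [gmat, LinearMap.toMatrixAlgEquiv'_apply, Pi.single_apply, Finset.sum_apply]
  simp only [aug, Rop, act, LinearMap.coe_mk, AddHom.coe_mk, map_sub, map_mul, map_sum, map_smul,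
    LinearMap.sub_apply, Module.End.mul_apply, LinearMap.coe_sum, Finset.sum_apply,
    LinearMap.smul_apply, h, Finset.sum_sub_distrib]
  rw [Finset.sum_comm, sub_self]

/-- the filtration by integers, shifted -/
noncomputable def FilZ (d : ℤ) : Submodule K (U K) := if d < 0 then ⊥ else Fil K d.toNat

theorem FilZ_natCast (d : ℕ) : FilZ K d = Fil K d := by simp [FilZ]

theorem FilZ_neg {d : ℤ} (h : d < 0) : FilZ K d = ⊥ := by simp [FilZ, h]

theorem FilZ_mono {a b : ℤ} (h : a ≤ b) : FilZ K a ≤ FilZ K b := by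
  by_cases ha : a < 0
  · simp [FilZ_neg K ha]
  · have hb : ¬ b < 0 := by omega
    simp only [FilZ, ha, hb, if_false]
    exact Fil_mono K (by omega)

theorem FilZ_mul {a b : ℤ} {u v : U K} (hu : u ∈ FilZ K a) (hv : v ∈ FilZ K b) :
    u * v ∈ FilZ K (a + b) := by
  by_cases ha : a < 0
  · rw [FilZ_neg K ha, Submodule.mem_bot] at hu; simp [hu]
  by_cases hb : b < 0
  · rw [FilZ_neg K hb, Submodule.mem_bot] at hv; simp [hv]
  have hab : ¬ a + b < 0 := by omega
  simp only [FilZ, ha, hb, hab, if_false] at hu hv ⊢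
  have := Fil_mul K hu hv
  rwa [show (a + b).toNat = a.toNat + b.toNat by omega]

variable {a b c : ℕ}


/-- generic lifting of exactness from symbols -/
theorem exact_of_symbol {Y : Type} [AddCommGroup Y] (p : ℕ)
    (D : (Fin a → Fin m → U K) → Y) (D' : (Fin c → Fin m → U K) → (Fin a → Fin m → U K))
    (S' : (Fin c → P K) → (Fin a → P K)) (s : (Fin a → P K) → (Fin c → P K))
    (hDsub : ∀ u v, D (u - v) = D u - D v) (hDD : ∀ w, D (D' w) = 0)
    (hD'add : ∀ v w, D' (v + w) = D' v + D' w)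
    (hD'top : ∀ k w, (∀ i j, w i j ∈ Fil K k) → (∀ i j, D' w i j ∈ Fil K (k + 1)) ∧
      ∀ j, (fun i => top K (k + 1) (D' w i j)) = S' (fun i => top K k (w i j)))
    (hD'zero : D' 0 = 0)
    (hS'smul : ∀ (r : K) t, S' (r • t) = r • S' t)
    (hs : ∀ (k : ℕ) t, (∀ i, (t i).IsHomogeneous k) → ∀ l, (s t l).IsHomogeneous (k - 1))
    (hs0 : ∀ t, (∀ i, (t i).IsHomogeneous 0) → s t = 0)
    (hsym : ∀ k u, (∀ i j, u i j ∈ Fil K k) → D u = 0 → 1 ≤ k + p → ∀ j,
      S' (s (fun i => top K k (u i j))) = (k + p) • (fun i => top K k (u i j)))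
    (hbase : p = 0 → ∀ u, (∀ i j, u i j ∈ Fil K 0) → D u = 0 → u = 0)
    [CharZero K] :
    ∀ (k : ℕ) u, (∀ i j, u i j ∈ Fil K k) → D u = 0 →
      ∃ w, (∀ i j, w i j ∈ FilZ K ((k : ℤ) - 1)) ∧ D' w = u := by
  intro k
  induction k with
  | zero =>
    intro u hu hD
    refine ⟨0, fun i j => by simp, ?_⟩
    rw [hD'zero]
    by_cases hp : p = 0
    · exact (hbase hp u hu hD).symm
    · symm
      ext i j
      refine eq_zero_of_top_zero K (hu i j) ?_
      have h := congrFun (hsym 0 u hu hD (by omega) j) i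
      rw [hs0 _ (fun l => top_isHomogeneous K 0 _)] at h
      have h00 : S' (0 : Fin c → P K) = 0 := by
        simpa using hS'smul 0 0
      rw [h00] at h
      simp [hp] at h
      exact h
  | succ k ih =>
    intro u hu hD
    set w0 : Fin c → Fin m → U K := fun l j =>
      sig K (((k + 1 + p : ℕ) : K)⁻¹ • s (fun i => top K (k + 1) (u i j)) l) with hw0def
    have hhom : ∀ j l, (((k + 1 + p : ℕ) : K)⁻¹ • s (fun i => top K (k + 1) (u i j)) l).IsHomogeneous
        k := by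
      intro j l
      rw [smul_eq_C_mul]
      refine IsHomogeneous.C_mul ?_ _
      simpa using hs (k + 1) _ (fun i => top_isHomogeneous K _ _) l
    have hw0 : ∀ l j, w0 l j ∈ Fil K k := by
      intro l j
      refine sig_mem K ?_
      rw [mem_restrictTotalDegree]
      exact (hhom j l).totalDegree_le
    obtain ⟨hmem, htop⟩ := hD'top k w0 hw0
    have hu' : ∀ i j, u i j - D' w0 i j ∈ Fil K k := by
      intro i j
      refine mem_Fil_pred K (sub_mem (hu i j) (hmem i j)) ?_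
      have h1 := congrFun (htop j) i
      have h2 : (fun l => top K k (w0 l j))
          = ((k + 1 + p : ℕ) : K)⁻¹ • s (fun i => top K (k + 1) (u i j)) := by
        funext l
        exact top_sig K (hhom j l)
      rw [h2, hS'smul, hsym (k + 1) u hu hD (by omega) j] at h1
      rw [map_sub, h1]
      have hne : ((k + 1 + p : ℕ) : K) ≠ 0 := Nat.cast_ne_zero.mpr (by omega)
      rw [← Nat.cast_smul_eq_nsmul K (k + 1 + p), smul_smul, inv_mul_cancel₀ hne, one_smul,
        sub_self]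
    have hD' : D (u - D' w0) = 0 := by rw [hDsub, hDD, hD, sub_self]
    obtain ⟨w1, hw1, hw1eq⟩ := ih (u - D' w0) (fun i j => hu' i j) hD'
    refine ⟨w0 + w1, fun l j => add_mem ?_ (FilZ_mono K (by omega) (hw1 l j)), ?_⟩
    · rw [show ((k + 1 : ℕ) : ℤ) - 1 = (k : ℤ) by omega, FilZ_natCast]
      exact hw0 l j
    · rw [hD'add, hw1eq, add_sub_cancel]

theorem smul_nat_zero [CharZero K] {n : ℕ} (hn : n ≠ 0) {t : P K} (h : n • t = 0) : t = 0 := by
  rw [← Nat.cast_smul_eq_nsmul K n t, smul_eq_zero] at h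
  exact h.resolve_left (Nat.cast_ne_zero.mpr hn)

theorem RR_mem (x : Fin 4) {k : ℕ} {u : Fin m → U K} (hu : ∀ j, u j ∈ Fil K k) (j : Fin m) :
    RR K ρ x u j ∈ Fil K (k + 1) := by
  refine sub_mem (Fil_mul K (hu j) (g_mem_Fil K x)) (Fil_mono K (Nat.le_succ k) ?_)
  simp only [act, LinearMap.coe_mk, AddHom.coe_mk]
  exact Submodule.sum_mem _ fun i _ => Submodule.smul_mem _ _ (hu i)

theorem top_RR (x : Fin 4) {k : ℕ} {u : Fin m → U K} (hu : ∀ j, u j ∈ Fil K k) (j : Fin m) :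
    top K (k + 1) (RR K ρ x u j) = Sym K x (top K k (u j)) := by
  have h : act K (gmat K ρ x) u j ∈ Fil K k := by
    simp only [act, LinearMap.coe_mk, AddHom.coe_mk]
    exact Submodule.sum_mem _ fun i _ => Submodule.smul_mem _ _ (hu i)
  simp only [Rop, LinearMap.coe_mk, AddHom.coe_mk, map_sub, top_mul_g K (hu j) x,
    top_eq_zero_of_lt K h (Nat.lt_succ_self k), sub_zero]
  rfl

theorem top_low {k : ℕ} {u : U K} (hu : u ∈ Fil K k) (z : ℤ) : top K (k + 1) (z • u) = 0 :=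
  top_eq_zero_of_lt K (zsmul_mem hu z) (Nat.lt_succ_self k)

theorem top_cd0 {k : ℕ} {w : Fin 4 → Fin m → U K} (hw : ∀ i j, w i j ∈ Fil K k) (j : Fin m) :
    cd0 (RR K ρ) w j ∈ Fil K (k + 1) ∧
      top K (k + 1) (cd0 (RR K ρ) w j) = cd0 (Sym K) (fun i => top K k (w i j)) := by
  refine ⟨?_, by simp [cd0, top_RR K ρ _ (hw _)]⟩
  simp only [cd0, LinearMap.add_apply, LinearMap.comp_apply, LinearMap.proj_apply, Pi.add_apply]
  repeat' apply add_mem
  all_goals exact RR_mem K ρ _ (hw _) j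

theorem top_cd1 {k : ℕ} {w : Fin 6 → Fin m → U K} (hw : ∀ i j, w i j ∈ Fil K k) (i : Fin 4)
    (j : Fin m) : cd1 (RR K ρ) 1 w i j ∈ Fil K (k + 1) ∧
      top K (k + 1) (cd1 (RR K ρ) 1 w i j) = cd1 (Sym K) 0 (fun i => top K k (w i j)) i := by
  have hl : ∀ (z : ℤ) l, z • w l j ∈ Fil K (k + 1) := fun z l =>
    zsmul_mem (Fil_mono K (Nat.le_succ k) (hw l j)) z
  refine ⟨?_, ?_⟩
  · fin_cases i <;> simp only [cd1, LinearMap.coe_mk, AddHom.coe_mk, Matrix.cons_val_zero,
      Matrix.cons_val_one, Matrix.cons_val, Fin.reduceFinMk, Fin.zero_eta, Fin.mk_one, Pi.add_apply,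
      Pi.sub_apply, Pi.neg_apply, Pi.smul_apply] <;>
    repeat' (first
      | exact RR_mem K ρ _ (hw _) j
      | exact hl _ _
      | apply add_mem
      | apply sub_mem
      | apply Submodule.neg_mem)
  · fin_cases i <;> simp [cd1, two_mul, top_RR K ρ _ (hw _), top_eq_zero_of_lt K (hw _ j) k.lt_succ_self]

theorem top_cd2 {k : ℕ} {w : Fin 4 → Fin m → U K} (hw : ∀ i j, w i j ∈ Fil K k) (i : Fin 6)
    (j : Fin m) : cd2 (RR K ρ) 1 w i j ∈ Fil K (k + 1) ∧
      top K (k + 1) (cd2 (RR K ρ) 1 w i j) = cd2 (Sym K) 0 (fun i => top K k (w i j)) i := by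
  have hl : ∀ (z : ℤ) l, z • w l j ∈ Fil K (k + 1) := fun z l =>
    zsmul_mem (Fil_mono K (Nat.le_succ k) (hw l j)) z
  refine ⟨?_, ?_⟩
  · fin_cases i <;> simp only [cd2, LinearMap.coe_mk, AddHom.coe_mk, Matrix.cons_val_zero,
      Matrix.cons_val_one, Matrix.cons_val, Fin.reduceFinMk, Fin.zero_eta, Fin.mk_one, Pi.add_apply,
      Pi.sub_apply, Pi.neg_apply, Pi.smul_apply] <;>
    repeat' (first
      | exact RR_mem K ρ _ (hw _) j
      | exact hl _ _
      | apply add_mem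
      | apply sub_mem
      | apply Submodule.neg_mem)
  · fin_cases i <;> simp [cd2, two_mul, top_RR K ρ _ (hw _), top_eq_zero_of_lt K (hw _ j) k.lt_succ_self]

theorem top_cd3 {k : ℕ} {w : Fin m → U K} (hw : ∀ j, w j ∈ Fil K k) (i : Fin 4)
    (j : Fin m) : cd3 (RR K ρ) w i j ∈ Fil K (k + 1) ∧
      top K (k + 1) (cd3 (RR K ρ) w i j) = cd3 (Sym K) (top K k (w j)) i := by
  refine ⟨?_, ?_⟩
  · fin_cases i <;> simp only [cd3, LinearMap.coe_mk, AddHom.coe_mk, Matrix.cons_val_zero,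
      Matrix.cons_val_one, Matrix.cons_val, Fin.reduceFinMk, Fin.zero_eta, Fin.mk_one,
      Pi.neg_apply] <;>
    first | exact RR_mem K ρ _ hw j | exact Submodule.neg_mem _ (RR_mem K ρ _ hw j)
  · fin_cases i <;> simp [cd3, top_RR K ρ _ hw]

theorem cd0_smul (r : K) (t : Fin 4 → P K) : cd0 (Sym K) (r • t) = r • cd0 (Sym K) t := by
  simp [cd0, Sym, mX, smul_add]

theorem cd1_smul (r : K) (t : Fin 6 → P K) : cd1 (Sym K) 0 (r • t) = r • cd1 (Sym K) 0 t := by
  ext1 i; fin_cases i <;> simp [cd1, Sym, mX, smul_add, smul_sub] <;> module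

theorem cd2_smul (r : K) (t : Fin 4 → P K) : cd2 (Sym K) 0 (r • t) = r • cd2 (Sym K) 0 t := by
  ext1 i; fin_cases i <;> simp [cd2, Sym, mX, smul_add, smul_sub] <;> module

theorem cd3_smul (r : K) (t : P K) : cd3 (Sym K) (r • t) = r • cd3 (Sym K) t := by
  ext1 i; fin_cases i <;> simp [cd3, Sym, mX]

theorem pderiv_hom {k : ℕ} {t : P K} (ht : t.IsHomogeneous k) (i : Fin 4) :
    pderiv i t ∈ homogeneousSubmodule (Fin 4) K (k - 1) :=
  (mem_homogeneousSubmodule _ _).mpr ht.pderiv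

theorem pderiv_hom0 {t : P K} (ht : t.IsHomogeneous 0) (i : Fin 4) : pderiv i t = 0 := by
  obtain ⟨r, rfl⟩ : ∃ r, t = C r :=
    ⟨_, totalDegree_eq_zero_iff_eq_C.mp (Nat.le_zero.mp ht.totalDegree_le)⟩
  simp

theorem h0_hom {k : ℕ} {t : P K} (ht : t.IsHomogeneous k) (i : Fin 4) :
    (h0 K t i).IsHomogeneous (k - 1) := by
  fin_cases i <;> exact ht.pderiv

theorem h1_hom {k : ℕ} {t : Fin 4 → P K} (ht : ∀ i, (t i).IsHomogeneous k) (i : Fin 6) :
    (h1 K t i).IsHomogeneous (k - 1) := by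
  rw [← mem_homogeneousSubmodule]
  fin_cases i <;> exact sub_mem (pderiv_hom K (ht _) _) (pderiv_hom K (ht _) _)

theorem h2_hom {k : ℕ} {t : Fin 6 → P K} (ht : ∀ i, (t i).IsHomogeneous k) (i : Fin 4) :
    (h2 K t i).IsHomogeneous (k - 1) := by
  rw [← mem_homogeneousSubmodule]
  fin_cases i
  · exact add_mem (sub_mem (pderiv_hom K (ht _) _) (pderiv_hom K (ht _) _))
      (pderiv_hom K (ht _) _)
  all_goals
    exact sub_mem (pderiv_hom K (ht _) _)
      (sub_mem (pderiv_hom K (ht _) _) (pderiv_hom K (ht _) _))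

theorem h3_hom {k : ℕ} {t : Fin 4 → P K} (ht : ∀ i, (t i).IsHomogeneous k) :
    (h3 K t).IsHomogeneous (k - 1) := by
  rw [← mem_homogeneousSubmodule]
  exact sub_mem (pderiv_hom K (ht _) _) (add_mem (sub_mem (pderiv_hom K (ht _) _)
      (pderiv_hom K (ht _) _)) (pderiv_hom K (ht _) _))

theorem int_exact {a c : ℕ} {Y : Type} [AddCommGroup Y]
    (D : (Fin a → Fin m → U K) → Y) (D' : (Fin c → Fin m → U K) → (Fin a → Fin m → U K))
    (hD'zero : D' 0 = 0)
    (h : ∀ (k : ℕ) u, (∀ i j, u i j ∈ Fil K k) → D u = 0 →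
      ∃ w, (∀ i j, w i j ∈ FilZ K ((k : ℤ) - 1)) ∧ D' w = u)
    (d : ℤ) (u : Fin a → Fin m → U K) (hu : ∀ i j, u i j ∈ FilZ K d) (hD : D u = 0) :
    ∃ w, (∀ i j, w i j ∈ FilZ K (d - 1)) ∧ D' w = u := by
  by_cases hd : d < 0
  · refine ⟨0, fun i j => zero_mem _, ?_⟩
    rw [hD'zero]
    ext i j
    have := hu i j
    rw [FilZ_neg K hd, Submodule.mem_bot] at this
    exact this.symm
  · obtain ⟨k, rfl⟩ := Int.eq_ofNat_of_zero_le (not_lt.mp hd)
    exact h k u (fun i j => by simpa [FilZ_natCast] using hu i j) hD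

variable [CharZero K]

theorem exact_aug (d : ℤ) (u : Fin m → U K) (hu : ∀ j, u j ∈ FilZ K d) (hπ : aug K ρ u = 0) :
    ∃ w : Fin 4 → Fin m → U K, (∀ i j, w i j ∈ FilZ K (d - 1)) ∧ cd0 (RR K ρ) w = u := by
  obtain ⟨w, hw, hw'⟩ := int_exact K (fun v : Fin 1 → Fin m → U K => aug K ρ (v 0))
    (fun w _ => cd0 (RR K ρ) w) (by funext; simp)
    (exact_of_symbol K 0 (fun v : Fin 1 → Fin m → U K => aug K ρ (v 0))
      (fun w _ => cd0 (RR K ρ) w) (fun t _ => cd0 (Sym K) t) (fun t => h0 K (t 0))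
      (fun u v => aug_sub K ρ _ _)
      (fun w => by simp [cd0, aug_add, aug_Rop])
      (fun v w => by funext; simp)
      (fun k w hw => ⟨fun _ j => (top_cd0 K ρ hw j).1,
        fun j => funext fun _ => (top_cd0 K ρ hw j).2⟩)
      (by funext; simp) (fun r t => by funext i; simp [cd0_smul])
      (fun k t ht => h0_hom K (ht 0))
      (fun t ht => by funext i; fin_cases i <;> simp [h0, pderiv_hom0 K (ht 0)])
      (fun k u hu hD hk j => by
        funext i; rw [Subsingleton.elim i 0]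
        simpa using sym_homotopy0 K (top_isHomogeneous K k (u 0 j)))
      (fun _ v hv hπ => by
        have hc : ∀ j, ∃ r : K, v 0 j = algebraMap K (U K) r := by
          intro j
          obtain ⟨r, hr⟩ := (Submodule.mem_one.mp (by simpa [Fil] using hv 0 j))
          exact ⟨r, hr.symm⟩
        choose r hr using hc
        have h := aug_algebraMap K ρ r
        rw [show (fun j => algebraMap K (U K) (r j)) = v 0 from funext fun j => (hr j).symm,
          hπ] at h
        funext i j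
        rw [Subsingleton.elim i 0, hr j, ← h]
        simp))
    d (fun _ => u) (fun _ => hu) hπ
  exact ⟨w, hw, congrFun hw' 0⟩

theorem exact_cd0 (d : ℤ) (u : Fin 4 → Fin m → U K) (hu : ∀ i j, u i j ∈ FilZ K d)
    (hD : cd0 (RR K ρ) u = 0) :
    ∃ w : Fin 6 → Fin m → U K, (∀ i j, w i j ∈ FilZ K (d - 1)) ∧ cd1 (RR K ρ) 1 w = u := by
  refine int_exact K (cd0 (RR K ρ)) (cd1 (RR K ρ) 1) (map_zero _) ?_ d u hu hD
  refine exact_of_symbol K 1 _ _ (cd1 (Sym K) 0) (h1 K) (map_sub _) (cd0_cd1 (isRight K ρ))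
    (map_add _) (fun k w hw => ⟨fun i j => (top_cd1 K ρ hw i j).1,
      fun j => funext fun i => (top_cd1 K ρ hw i j).2⟩)
    (map_zero _) (cd1_smul K) (fun k t ht => h1_hom K ht)
    (fun t ht => by funext i; fin_cases i <;> simp [h1, pderiv_hom0 K (ht _)]) ?_ (by simp)
  intro k u hu hD hk j
  have h := sym_homotopy1 K (v := fun i => top K k (u i j)) (fun i => top_isHomogeneous K k _)
  rw [← (top_cd0 K ρ hu j).2, hD] at h
  have e : h0 K (top K (k + 1) ((0 : Fin m → U K) j)) = 0 := by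
    funext i; fin_cases i <;> simp [h0]
  rwa [e, add_zero] at h

theorem exact_cd1 (d : ℤ) (u : Fin 6 → Fin m → U K) (hu : ∀ i j, u i j ∈ FilZ K d)
    (hD : cd1 (RR K ρ) 1 u = 0) :
    ∃ w : Fin 4 → Fin m → U K, (∀ i j, w i j ∈ FilZ K (d - 1)) ∧ cd2 (RR K ρ) 1 w = u := by
  refine int_exact K (cd1 (RR K ρ) 1) (cd2 (RR K ρ) 1) (map_zero _) ?_ d u hu hD
  refine exact_of_symbol K 2 _ _ (cd2 (Sym K) 0) (h2 K) (map_sub _) (cd1_cd2 (isRight K ρ))
    (map_add _) (fun k w hw => ⟨fun i j => (top_cd2 K ρ hw i j).1,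
      fun j => funext fun i => (top_cd2 K ρ hw i j).2⟩)
    (map_zero _) (cd2_smul K) (fun k t ht => h2_hom K ht)
    (fun t ht => by funext i; fin_cases i <;> simp [h2, pderiv_hom0 K (ht _)]) ?_ (by simp)
  intro k u hu hD hk j
  have h := sym_homotopy2 K (v := fun i => top K k (u i j)) (fun i => top_isHomogeneous K k _)
  have e : cd1 (Sym K) 0 (fun i => top K k (u i j)) = 0 := by
    funext i
    rw [← (top_cd1 K ρ hu i j).2, hD]; simp
  have e' : h1 K (0 : Fin 4 → P K) = 0 := by funext i; fin_cases i <;> simp [h1]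
  rwa [e, e', add_zero] at h

theorem exact_cd2 (d : ℤ) (u : Fin 4 → Fin m → U K) (hu : ∀ i j, u i j ∈ FilZ K d)
    (hD : cd2 (RR K ρ) 1 u = 0) :
    ∃ w : Fin m → U K, (∀ j, w j ∈ FilZ K (d - 1)) ∧ cd3 (RR K ρ) w = u := by
  obtain ⟨w, hw, hw'⟩ := int_exact K (cd2 (RR K ρ) 1)
    (fun w : Fin 1 → Fin m → U K => cd3 (RR K ρ) (w 0)) (by simp)
    (exact_of_symbol K 3 _ (fun w : Fin 1 → Fin m → U K => cd3 (RR K ρ) (w 0))
      (fun t => cd3 (Sym K) (t 0)) (fun t _ => h3 K t) (map_sub _)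
      (fun w => cd2_cd3 (isRight K ρ) _) (fun v w => by simp)
      (fun k w hw => ⟨fun i j => (top_cd3 K ρ (hw 0) i j).1,
        fun j => funext fun i => (top_cd3 K ρ (hw 0) i j).2⟩)
      (by simp) (fun r t => cd3_smul K r _) (fun k t ht _ => h3_hom K ht)
      (fun t ht => by funext i; simp [h3, pderiv_hom0 K (ht _)])
      (fun k u hu hD hk j => by
        have h := sym_homotopy3 K (v := fun i => top K k (u i j))
          (fun i => top_isHomogeneous K k _)
        have e : cd2 (Sym K) 0 (fun i => top K k (u i j)) = 0 := by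
          funext i
          rw [← (top_cd2 K ρ hu i j).2, hD]; simp
        have e' : h2 K (0 : Fin 6 → P K) = 0 := by funext i; fin_cases i <;> simp [h2]
        rwa [e, e', add_zero] at h)
      (by simp))
    d u hu hD
  exact ⟨w 0, hw 0, hw'⟩

omit [CharZero K] in
theorem cd3_injective (d : ℤ) (u : Fin m → U K) (hu : ∀ j, u j ∈ FilZ K d)
    (hD : cd3 (RR K ρ) u = 0) : u = 0 := by
  have key : ∀ k : ℕ, ∀ u : Fin m → U K, (∀ j, u j ∈ Fil K k) → cd3 (RR K ρ) u = 0 → u = 0 := by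
    intro k
    have htop : ∀ k (u : Fin m → U K), (∀ j, u j ∈ Fil K k) → cd3 (RR K ρ) u = 0 →
        ∀ j, top K k (u j) = 0 := by
      intro k u hu hD j
      have h := (top_cd3 K ρ hu 0 j).2
      rw [hD] at h
      have h2 : (X 3 : P K) * top K k (u j) = 0 := by
        simpa [cd3, Sym, mX] using h.symm
      exact (mul_eq_zero.mp h2).resolve_left (X_ne_zero _)
    induction k with
    | zero =>
      intro u hu hD
      funext j
      exact eq_zero_of_top_zero K (hu j) (htop 0 u hu hD j)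
    | succ k ih =>
      intro u hu hD
      exact ih u (fun j => mem_Fil_pred K (hu j) (htop _ u hu hD j)) hD
  by_cases hd : d < 0
  · funext j
    have := hu j
    rwa [FilZ_neg K hd, Submodule.mem_bot] at this
  · exact key d.toNat u (fun j => by simpa [FilZ, hd] using hu j) hD

end Vale.Agent.P176
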